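import Vale.Agent.P088.R2.H31.EP.Thx

/-!
# P088 (helper406), leaf iH: the top part at levels above `l₀ + 2.85 R`
-/

open Set Filter
open scoped ContDiff Topology

noncomputable section

namespace Vale.Agent.P088.R2.H406.INF

open Vale.Agent.P088.R2.H31.EP

variable {n : ℕ} {q : Cst} {d : Pk n}

theorem one_v {v : ℝ} (hv : 285 / 100 ≤ v) : (1 + v) ^ 2 ≤ 15 * Real.exp (v - 285 / 100) := by
  have h1 := Real.add_one_le_exp ((v - 285 / 100) / 2)
  have h2 : 1 + v ≤ 385 / 100 * Real.exp ((v - 285 / 100) / 2) := by linarith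
  have h3 := pow_le_pow_left₀ (by linarith : 0 ≤ 1 + v) h2 2
  have e : (385 / 100 * Real.exp ((v - 285 / 100) / 2)) ^ 2 =
      (385 / 100) ^ 2 * Real.exp (v - 285 / 100) := by
    rw [mul_pow, ← Real.exp_nat_mul]
    congr 2
    push_cast
    ring
  rw [e] at h3
  have := Real.exp_pos (v - 285 / 100)
  linarith

/-- The sum of the constants of `Θ`. -/
def cT : ℝ := thC 0 + thC 1 + thC 2

theorem cT_ge {j : ℕ} (hj : j ≤ 2) : thC j ≤ cT := by
  have h0 := thC_nonneg 0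
  have h1 := thC_nonneg 1
  have h2 := thC_nonneg 2
  unfold cT
  interval_cases j <;> linarith

/-- The numerical conditions. -/
structure TS (q : Cst) : Prop where
  σ0 : 0 < q.σ
  R16 : 16 ≤ q.R
  C4 : 1 ≤ q.C₄
  L4 : 1 ≤ q.L₄
  LR : 1 ≤ q.C₄ * (q.R / q.σ)
  k1 : 30 * cT * q.L₄ ^ 3 ≤ Real.exp (q.C₄ * (q.R / q.σ))
  k2 : 30 * cT * q.R ^ 4 * Real.exp (-(21 / 100 * √q.R)) ≤ 1
  k3 : 4 ≤ Real.exp (q.C₄ * (q.R / q.σ))

namespace TS

theorem R1 (s : TS q) : 1 ≤ q.R := by linarith [s.R16]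

theorem R0 (s : TS q) : 0 < q.R := by linarith [s.R1]

theorem A4 (_s : TS q) : q.A₄ = Real.exp (q.C₄ * (q.R / q.σ)) := by
  unfold Cst.A₄
  rw [mul_div_assoc]

theorem L4R (s : TS q) : q.L₄ * q.R = 20 * (q.C₄ * (q.R / q.σ)) := by
  have := s.σ0.ne'
  unfold Cst.L₄
  field_simp

/-- The fast part. -/
theorem fast (s : TS q) (h : PkOk q d) {v : ℝ} (hv : 285 / 100 ≤ v) :
    deriv (deriv d.ΘL) (d.l₀ q + q.R * v) ≤
      q.L₄ * (Real.exp (-(q.C₄ * (q.R / q.σ))) * Real.exp (-(v - 285 / 100))) := by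
  have h1 := h.th.dn (d.l₀ q + q.R * v)
  refine h1.trans (mul_le_mul_of_nonneg_left ?_ (by linarith [s.L4]))
  rw [s.A4, ← Real.exp_add, ← Real.exp_add]
  refine Real.exp_le_exp.2 ?_
  have e : q.L₄ * (d.l₀ q + q.R * v - (d.l₀ q + 26 / 10 * q.R + 3 / 10 * q.R / 2)) =
      q.L₄ * q.R * (v - 275 / 100) := by ring
  rw [e, s.L4R]
  have h2 := s.LR
  set c := q.C₄ * (q.R / q.σ)
  nlinarith

/-- The slow part. -/
theorem slow (s : TS q) (h : PkOk q d) {v : ℝ} (hv : 285 / 100 ≤ v) :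
    deriv (deriv d.ΘT) ((d.l₀ q + q.R * v) / √q.R) ≤
      q.R ^ 4 * (Real.exp (-(21 / 100 * √q.R)) * Real.exp (-(v - 285 / 100))) := by
  have hR0 := s.R0
  have hs : 0 < √q.R := Real.sqrt_pos.2 hR0
  have hs1 : 1 ≤ √q.R := Real.one_le_sqrt.2 s.R1
  have hss : √q.R * √q.R = q.R := Real.mul_self_sqrt hR0.le
  have h1 := h.ts.dn ((d.l₀ q + q.R * v) / √q.R)
  rw [one_mul, one_mul] at h1
  refine h1.trans (mul_le_mul_of_nonneg_left ?_ (by positivity))
  rw [← Real.exp_add]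
  refine Real.exp_le_exp.2 ?_
  have e : (d.l₀ q + q.R * v) / √q.R - ((d.l₀ q + 26 / 10 * q.R) / √q.R + 8 / 100 * √q.R / 2) =
      √q.R * (v - 264 / 100) := by
    field_simp
    have : √q.R ^ 2 = q.R := Real.sq_sqrt hR0.le
    rw [this]
    ring
  rw [e]
  nlinarith

/-- **The derivatives of order `2`, `3`, `4` are tiny.** -/
theorem tiny (s : TS q) (h : PkOk q d) {v : ℝ} (hv : 285 / 100 ≤ v) {j : ℕ} (hj : j ≤ 2) :
    |iteratedDeriv (j + 2) d.Θ (d.l₀ q + q.R * v)| * (1 + v) ^ 2 ≤ 1 := by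
  have hR0 := s.R0
  have hs : 0 < √q.R := Real.sqrt_pos.2 hR0
  have hs1 : 1 ≤ √q.R := Real.one_le_sqrt.2 s.R1
  have hss : √q.R * √q.R = q.R := Real.mul_self_sqrt hR0.le
  have hL := s.L4
  have hc := thC_nonneg j
  have hcT := cT_ge hj
  have hcT0 : 0 ≤ cT := hc.trans hcT
  have hR1 := s.R1
  set t := d.l₀ q + q.R * v with ht
  have ov := one_v hv
  have E0 := Real.exp_pos (v - 285 / 100)
  have EE : Real.exp (-(v - 285 / 100)) * Real.exp (v - 285 / 100) = 1 := by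
    rw [← Real.exp_add, neg_add_cancel, Real.exp_zero]
  -- the fast part
  have a1 : |iteratedDeriv (j + 2) d.ΘL t| ≤ cT * q.L₄ ^ 3 *
      (Real.exp (-(q.C₄ * (q.R / q.σ))) * Real.exp (-(v - 285 / 100))) := by
    have h1 := h.th.ll j t (by
      have := s.R16
      have := mul_le_mul_of_nonneg_left hv hR0.le
      rw [ht]
      linarith)
    have h2 := s.fast h hv
    rw [← ht] at h2
    refine h1.trans ?_
    have h3 : thC j * q.L₄ ^ j ≤ cT * q.L₄ ^ 2 :=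
      mul_le_mul hcT (pow_le_pow_right₀ hL hj) (by positivity) hcT0
    have h4 := mul_le_mul h3 h2 (h.th.cv t) (by positivity)
    refine h4.trans (le_of_eq ?_)
    ring
  -- the slow part
  have a2 : |√q.R * (√q.R)⁻¹ ^ (j + 2) * iteratedDeriv (j + 2) d.ΘT (t / √q.R)| ≤
      cT * (q.R ^ 4 * (Real.exp (-(21 / 100 * √q.R)) * Real.exp (-(v - 285 / 100)))) := by
    have h1 := h.ts.ll j (t / √q.R) (by
      rw [le_div_iff₀ hs, add_mul, div_mul_cancel₀ _ hs.ne', ht]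
      have h16 : 4 ≤ √q.R := Real.le_sqrt_of_sq_le (by linarith [s.R16])
      have : 4 * √q.R ≤ q.R := by nlinarith
      have := mul_le_mul_of_nonneg_left hv hR0.le
      linarith)
    have h2 := s.slow h hv
    rw [← ht] at h2
    rw [one_pow, mul_one] at h1
    rw [abs_mul, abs_of_nonneg (by positivity : 0 ≤ √q.R * (√q.R)⁻¹ ^ (j + 2))]
    have e1 : √q.R * (√q.R)⁻¹ ^ (j + 2) = (√q.R)⁻¹ ^ (j + 1) := by
      rw [pow_succ (√q.R)⁻¹ (j + 1)]; field_simp
    rw [e1]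
    have e3 : (√q.R)⁻¹ ^ (j + 1) ≤ 1 :=
      pow_le_one₀ (inv_nonneg.2 hs.le) (inv_le_one_of_one_le₀ hs1)
    have h3 := mul_le_mul hcT h2 (h.ts.cv _) hcT0
    calc (√q.R)⁻¹ ^ (j + 1) * |iteratedDeriv (j + 2) d.ΘT (t / √q.R)| ≤
        1 * (thC j * deriv (deriv d.ΘT) (t / √q.R)) :=
          mul_le_mul e3 h1 (abs_nonneg _) zero_le_one
      _ ≤ _ := by rw [one_mul]; exact h3
  have a3 : |iteratedDeriv (j + 2) d.Θ t| ≤ (cT * q.L₄ ^ 3 * Real.exp (-(q.C₄ * (q.R / q.σ))) +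
      cT * q.R ^ 4 * Real.exp (-(21 / 100 * √q.R))) * Real.exp (-(v - 285 / 100)) := by
    rw [h.Θj]
    refine (abs_add_le _ _).trans ((add_le_add a1 a2).trans (le_of_eq ?_))
    ring
  have a4 := mul_le_mul a3 ov (sq_nonneg _) (by positivity)
  refine a4.trans ?_
  have e : (cT * q.L₄ ^ 3 * Real.exp (-(q.C₄ * (q.R / q.σ))) +
      cT * q.R ^ 4 * Real.exp (-(21 / 100 * √q.R))) * Real.exp (-(v - 285 / 100)) *
      (15 * Real.exp (v - 285 / 100)) = 1 / 2 * (30 * cT * q.L₄ ^ 3 *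
        Real.exp (-(q.C₄ * (q.R / q.σ))) + 30 * cT * q.R ^ 4 * Real.exp (-(21 / 100 * √q.R))) *
        (Real.exp (-(v - 285 / 100)) * Real.exp (v - 285 / 100)) := by ring
  rw [e, EE, mul_one]
  have b1 : 30 * cT * q.L₄ ^ 3 * Real.exp (-(q.C₄ * (q.R / q.σ))) ≤ 1 := by
    have h1 := mul_le_mul_of_nonneg_right s.k1 (Real.exp_pos (-(q.C₄ * (q.R / q.σ)))).le
    rwa [← Real.exp_add, add_neg_cancel, Real.exp_zero] at h1
  have b2 := s.k2
  linarith

/-- **The slope.** -/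
theorem low (s : TS q) (h : PkOk q d) {t : ℝ} (ht : d.l₀ q + 285 / 100 * q.R ≤ t) :
    q.A₄ / 4 ≤ deriv d.Θ t := by
  have hR0 := s.R0
  have hL := s.L4
  have hA : 0 < q.A₄ := Real.exp_pos _
  rcases le_total (d.l₀ q + 29 / 10 * q.R) t with h1 | h1
  · have := h.Θtop hR0 t h1
    linarith
  rw [h.Θd hR0]
  have h2 := h.ts.d0 (t / √q.R)
  suffices h3 : q.A₄ / 4 ≤ deriv d.ΘL t by linarith
  set K := q.L₄ * Real.exp (-(q.C₄ * (q.R / q.σ))) with hK
  have hd : Differentiable ℝ (deriv d.ΘL) := by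
    have : ContDiff ℝ ∞ (deriv d.ΘL) := (contDiff_infty_iff_deriv.1 h.th.sm).2
    exact this.differentiable (by simp)
  have h4 := (convex_Ici (d.l₀ q + 285 / 100 * q.R)).image_sub_le_mul_sub_of_deriv_le
    hd.continuous.continuousOn hd.differentiableOn (C := K) (fun x hx => by
      rw [interior_Ici] at hx
      have hx' : d.l₀ q + 285 / 100 * q.R < x := hx
      have hv : 285 / 100 ≤ (x - d.l₀ q) / q.R := by
        rw [le_div_iff₀ hR0]
        linarith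
      have e : d.l₀ q + q.R * ((x - d.l₀ q) / q.R) = x := by
        field_simp
        ring
      have h5 := s.fast h hv
      rw [e] at h5
      refine h5.trans ?_
      rw [hK]
      refine mul_le_mul_of_nonneg_left ?_ (by linarith)
      refine mul_le_of_le_one_right (Real.exp_pos _).le ?_
      rw [Real.exp_le_one_iff]
      linarith) t ht (d.l₀ q + 29 / 10 * q.R) (by
        show d.l₀ q + 285 / 100 * q.R ≤ d.l₀ q + 29 / 10 * q.R
        linarith) h1
  have h5 := h.th.top (d.l₀ q + 29 / 10 * q.R) (by linarith)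
  have K0 : 0 ≤ K := by positivity
  have h6 : K * (d.l₀ q + 29 / 10 * q.R - t) ≤ K * (5 / 100 * q.R) :=
    mul_le_mul_of_nonneg_left (by linarith) K0
  have h7 : K * (5 / 100 * q.R) ≤ 1 := by
    have e : K * (5 / 100 * q.R) = 5 / 100 * (q.L₄ * q.R) *
        Real.exp (-(q.C₄ * (q.R / q.σ))) := by rw [hK]; ring
    rw [e, s.L4R]
    set c := q.C₄ * (q.R / q.σ)
    have h8 := Real.add_one_le_exp c
    have h9 : c * Real.exp (-c) ≤ 1 := by
      have h10 := mul_le_mul_of_nonneg_right (by linarith : c ≤ Real.exp c) (Real.exp_pos (-c)).le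
      rwa [← Real.exp_add, add_neg_cancel, Real.exp_zero] at h10
    linarith
  have h8 : (4 : ℝ) ≤ q.A₄ := by rw [s.A4]; exact s.k3
  linarith

end TS

end Vale.Agent.P088.R2.H406.INF
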