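import Vale.Agent.P088.R2.H406.INF.SSq
import Vale.Agent.P088.R2.H406.INF.SSt
import Vale.Agent.P088.R2.H493.INF.RowC

/-!
# P088 (helper406), leaf iH: **row SS**, the very stiff slot
-/

open MeasureTheory Set Filter
open scoped ContDiff Topology Matrix

noncomputable section

namespace Vale.Agent.P088.R2.H406.INF

open Vale.Agent.P088.R2.H961.GW Vale.Agent.P088.R2.H960.W Vale.Agent.P088.R2.H644
open Vale.Agent.P088.R2.H551.E Vale.Agent.P088.LR Vale.Agent.P088.HY Vale.Agent.P088.R2.H475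
open Vale.Agent.P088.R2.H269.INF Vale.Agent.P088.R2.H168.INF Vale.Agent.P088.R2.H31.EP
open Vale.Agent.P088.R2.H380.INF (Bs sb_pt gm gm_nn gm_le cm1)
open Vale.Agent.P088.R2.H493.INF (SN SC X Y Ua ev_SN ev_Y1)
open Vale.Agent.P088.R2.H871.INF (P2 P2_sm P2_bd Cr Cr_one)

variable {n : ℕ} {q : Cst} {d : Pk n}

/-! ### The part without `Θ` -/

/-- `W₀ (P x, P y)`. -/
def fR (q : Cst) (d : Pk n) (z : VV n) : ℝ := W0 q d (d.P z.1, d.P z.2)

theorem fR_sm (s : SN n q) (h : PkOk q d) : ContDiff ℝ ∞ (fR q d) :=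
  (s.W0_sm h).comp ((h.ret.sm.comp contDiff_fst).prodMk (h.ret.sm.comp contDiff_snd))

/-- The hypotheses of `sb_pt`. -/
theorem bs_of (h : PkOk q d) (hR : 1 ≤ q.R) (he : q.ε ≤ 1) {f : VV n → ℝ}
    (hf : ContDiff ℝ ∞ f) : Bs q.R d.s₁ d.s₂ f := by
  have key : ∀ s : MF n, (∀ i j, ∀ m ≤ 12, ∀ x, ‖iteratedFDeriv ℝ m (fun x => s x i j -
      (1 : Matrix (Fin n) (Fin n) ℝ) i j) x‖ ≤ q.ε * q.R⁻¹ ^ m) → ∀ i j, ∀ m ≤ 3, ∀ x,
      ‖iteratedFDeriv ℝ m (fun x => s x i j) x‖ ≤ 2 * q.R⁻¹ ^ m := by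
    intro s hs i j m hm x
    have h1 := hs i j m (by omega) x
    rcases m with _ | m
    · rw [norm_iteratedFDeriv_zero, pow_zero, mul_one, Real.norm_eq_abs] at h1 ⊢
      have h2 : |(1 : Matrix (Fin n) (Fin n) ℝ) i j| ≤ 1 := by
        rw [Matrix.one_apply]; split_ifs <;> simp
      have h3 := abs_sub_abs_le_abs_sub (s x i j) ((1 : Matrix (Fin n) (Fin n) ℝ) i j)
      linarith
    · have e : (fderiv ℝ fun x => s x i j - (1 : Matrix (Fin n) (Fin n) ℝ) i j) =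
          fderiv ℝ fun x => s x i j := by
        funext x
        exact fderiv_sub_const _
      rw [← norm_iteratedFDeriv_fderiv, e, norm_iteratedFDeriv_fderiv] at h1
      refine h1.trans (mul_le_mul_of_nonneg_right (by linarith) (by positivity))
  refine ⟨hR, h.rg.sm₁, h.rg.sm₂, fun x i j => ((h.rg.sy₁ x).apply i j).symm,
    fun x i j => ((h.rg.sy₂ x).apply i j).symm, key _ h.rg.cl₁, key _ h.rg.cl₂, hf⟩

/-! ### `N` at `(P x, P y)` -/

theorem N2_bd (s : SN n q) (h : PkOk q d) (u : ℝ) :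
    |deriv (deriv d.Φ) u| ≤ Y q ^ 3 * Real.exp (2 * q.C₃ * X q) := by
  have h1 := (s.sk_N h).b 1 (by norm_num) u (mem_univ u)
  rwa [iteratedDeriv_one] at h1

theorem hN_sm (h : PkOk q d) : ContDiff ℝ ∞ (hN q d) := by
  have h1 : ContDiff ℝ ∞ (deriv d.Φ) := (contDiff_infty_iff_deriv.1 h.Φs).2
  exact h1.comp ((h.lev.sm.comp (h.ret.sm.comp contDiff_fst)).add
    (h.lev.sm.comp (h.ret.sm.comp contDiff_snd)))

/-- The large number. -/
def dl (q : Cst) : ℝ := Real.exp (q.C₄ * (q.R / q.σ) / 100)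

theorem dl_ge (s : SN n q) : 2 * (Y q ^ 5 * Real.exp (2 * q.C₃ * X q)) ≤ dl q := by
  have hY := s.s.Y64
  have hX := s.s.X1
  have hC := s.C3
  have hCX := s.CX
  have h1 : 2 * (Y q ^ 5 * Real.exp (2 * q.C₃ * X q)) ≤
      Y q ^ 6 * Real.exp (2 * q.C₃ * X q) := by
    have : 0 ≤ Y q ^ 5 * Real.exp (2 * q.C₃ * X q) := by
      have := s.s.Y0
      positivity
    calc 2 * (Y q ^ 5 * Real.exp (2 * q.C₃ * X q)) ≤ Y q * (Y q ^ 5 *
        Real.exp (2 * q.C₃ * X q)) := mul_le_mul_of_nonneg_right (by linarith) this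
      _ = _ := by ring
  refine h1.trans ?_
  rw [SC.Y_pow, ← Real.exp_add]
  refine Real.exp_le_exp.2 ?_
  have h9 := s.C4
  have e : q.R / q.σ = X q := rfl
  rw [e]
  have h10 := mul_le_mul_of_nonneg_right h9 (show (0 : ℝ) ≤ X q by linarith)
  norm_num
  linarith

theorem dl_pos (q : Cst) : 0 < dl q := Real.exp_pos _

theorem hN_bd (s : SN n q) (h : PkOk q d) (z : VV n) : 0 ≤ hN q d z ∧ hN q d z ≤ dl q := by
  have h1 := s.N_le h (d.l (d.P z.1) + d.l (d.P z.2))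
  refine ⟨(h.N_pos s.M1 _).le, h1.trans (le_trans ?_ (dl_ge s))⟩
  have hY := s.s.Y1
  have hE := Real.exp_pos (2 * q.C₃ * X q)
  have h2 : Y q ^ 2 ≤ Y q ^ 5 := pow_le_pow_right₀ hY (by norm_num)
  have h3 := mul_le_mul_of_nonneg_right h2 hE.le
  have h4 : 0 ≤ Y q ^ 5 * Real.exp (2 * q.C₃ * X q) := by positivity
  linarith

/-- The derivative of `N (P x, P y)`. -/
theorem hN_fd (s : SN n q) (hn : 1 ≤ n) (h : PkOk q d) (z : VV n) :
    ‖fderiv ℝ (hN q d) z‖ ≤ dl q := by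
  have hY := s.s.Y1
  have hY0 := s.s.Y0
  have hE := Real.exp_pos (2 * q.C₃ * X q)
  set w := P2 d.P z with hw
  have hwU : w ∈ Ua q d := s.P2_mem hn h z
  have sl : Differentiable ℝ d.l := h.lev.sm.differentiable (by simp)
  have su : Differentiable ℝ fun z : VV n => d.l z.1 + d.l z.2 :=
    (sl.comp differentiable_fst).add (sl.comp differentiable_snd)
  have sN : Differentiable ℝ (deriv d.Φ) := by
    have : ContDiff ℝ ∞ (deriv d.Φ) := (contDiff_infty_iff_deriv.1 h.Φs).2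
    exact this.differentiable (by simp)
  have sP : Differentiable ℝ (P2 d.P) := (P2_sm h.ret.sm).differentiable (by simp)
  -- the derivative of `l z.1 + l z.2`
  have b1 : ‖fderiv ℝ (fun z : VV n => d.l z.1) w‖ ≤ Y q := by
    have := (s.s.bl1 h).b 1 (by norm_num) w hwU
    rwa [show (1 : ℕ) = 0 + 1 from rfl, ← norm_iteratedFDeriv_fderiv, norm_iteratedFDeriv_zero,
      zero_add, pow_one] at this
  have b2 : ‖fderiv ℝ (fun z : VV n => d.l z.2) w‖ ≤ Y q := by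
    have := (s.s.bl2 h).b 1 (by norm_num) w hwU
    rwa [show (1 : ℕ) = 0 + 1 from rfl, ← norm_iteratedFDeriv_fderiv, norm_iteratedFDeriv_zero,
      zero_add, pow_one] at this
  have b3 : ‖fderiv ℝ (fun z : VV n => d.l z.1 + d.l z.2) w‖ ≤ 2 * Y q := by
    have d1 : DifferentiableAt ℝ (fun z : VV n => d.l z.1) w := (sl.comp differentiable_fst) w
    have d2 : DifferentiableAt ℝ (fun z : VV n => d.l z.2) w := (sl.comp differentiable_snd) w
    rw [fderiv_fun_add d1 d2]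
    refine (norm_add_le _ _).trans ?_
    linarith
  have b4 : ‖fderiv ℝ (P2 d.P) z‖ ≤ Y q := by
    have h1 := P2_bd (s.retr hn h) le_rfl z
    rw [show (1 : ℕ) = 0 + 1 from rfl, ← norm_iteratedFDeriv_fderiv, norm_iteratedFDeriv_zero,
      zero_add, pow_one, mul_assoc, mul_inv_cancel₀ s.s.R0.ne', mul_one] at h1
    refine h1.trans (le_trans ?_ s.n3)
    have h2 : Cr n 1 ≤ ∑ i ∈ Finset.range 5, Cr n i :=
      Finset.single_le_sum (f := fun i => Cr n i)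
        (fun i _ => zero_le_one.trans (Cr_one n i)) (Finset.mem_range.2 (by norm_num))
    have h3 := Cr_one n 1
    have h4 : 1 ≤ ∑ i ∈ Finset.range 5, Cr n i := h3.trans h2
    have h5 : ∑ i ∈ Finset.range 5, Cr n i ≤ (∑ i ∈ Finset.range 5, Cr n i) ^ 4 :=
      le_self_pow₀ h4 (by norm_num)
    linarith
  have e : hN q d = fun z => deriv d.Φ ((fun w : VV n => d.l w.1 + d.l w.2) (P2 d.P z)) := rfl
  have h1 : HasFDerivAt (hN q d) (deriv (deriv d.Φ) ((fun w : VV n => d.l w.1 + d.l w.2) w) •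
      (fderiv ℝ (fun z : VV n => d.l z.1 + d.l z.2) w).comp (fderiv ℝ (P2 d.P) z)) z := by
    rw [e]
    have h2 := (su w).hasFDerivAt.comp z (sP z).hasFDerivAt
    exact (sN _).hasDerivAt.comp_hasFDerivAt z h2
  rw [h1.fderiv, norm_smul, Real.norm_eq_abs]
  have h3 := N2_bd s h ((fun w : VV n => d.l w.1 + d.l w.2) w)
  have h4 := ContinuousLinearMap.opNorm_comp_le
    (fderiv ℝ (fun z : VV n => d.l z.1 + d.l z.2) w) (fderiv ℝ (P2 d.P) z)
  have h5 : ‖fderiv ℝ (fun z : VV n => d.l z.1 + d.l z.2) w‖ * ‖fderiv ℝ (P2 d.P) z‖ ≤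
      2 * Y q * Y q := mul_le_mul b3 b4 (norm_nonneg _) (by positivity)
  have h6 := mul_le_mul h3 (h4.trans h5) (norm_nonneg _) (by positivity)
  refine h6.trans (le_trans (le_of_eq ?_) (dl_ge s))
  ring

/-! ### The numbers -/

/-- The constant of `sb_pt`. -/
def Cs4 (n : ℕ) : ℝ := (sb_pt n).choose + 1

theorem Cs4_one (n : ℕ) : 1 ≤ Cs4 n := by
  unfold Cs4
  linarith [(sb_pt n).choose_spec.1]

/-- The size of everything except `Θ'`. -/
def BB (n : ℕ) (q : Cst) : ℝ := Cs4 n * (4 * dl q)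

theorem BB_ge (n : ℕ) (q : Cst) : dl q ≤ BB n q := by
  unfold BB
  have h1 := Cs4_one n
  have h2 := dl_pos q
  nlinarith

structure NS (n : ℕ) (q : Cst) : Prop where
  s : SN n q
  t : TS q
  rc : ∀ d : Pk n, PkOk q d → ∀ z : VV n, ∀ j, 1 ≤ j → j ≤ 4 →
    ‖iteratedFDeriv ℝ j (fR q d) z‖ ≤ dl q
  εn : 0 ≤ q.ε
  n5 : 64 * 10 ^ 12 * ((n : ℝ) + 1) ^ 6 * Cs4 n ^ 2 ≤ Y q

theorem ev_k2 : EvC fun q => 30 * cT * q.R ^ 4 * Real.exp (-(21 / 100 * √q.R)) ≤ 1 := by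
  refine EvC.at_R (fun _ t => 30 * cT * t ^ 4 * Real.exp (-(21 / 100 * √t)) ≤ 1) fun _ => ?_
  have h1 := Real.tendsto_pow_mul_exp_neg_atTop_nhds_zero 8
  have h2 : Tendsto (fun t : ℝ => 21 / 100 * √t) atTop atTop :=
    Real.tendsto_sqrt_atTop.const_mul_atTop (by norm_num)
  have h3 := (h1.comp h2).const_mul (30 * cT * (100 / 21) ^ 8)
  rw [mul_zero] at h3
  filter_upwards [h3.eventually_le_const one_pos, eventually_ge_atTop 0] with t ht h0
  refine le_trans (le_of_eq ?_) ht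
  have e : (√t) ^ 8 = t ^ 4 := by
    have : √t ^ 2 = t := Real.sq_sqrt h0
    calc √t ^ 8 = (√t ^ 2) ^ 4 := by ring
      _ = t ^ 4 := by rw [this]
  show 30 * cT * t ^ 4 * Real.exp (-(21 / 100 * √t)) =
    30 * cT * (100 / 21) ^ 8 * ((21 / 100 * √t) ^ 8 * Real.exp (-(21 / 100 * √t)))
  rw [mul_pow, e]
  ring

theorem ev_NS (hn : 1 ≤ n) : EvC (NS n) := by
  have e1 : EvC fun q => 16 ≤ q.R := EvC.at_R (fun _ t => 16 ≤ t) fun _ => eventually_ge_atTop _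
  have e2 : EvC fun q => 64 * 10 ^ 12 * ((n : ℝ) + 1) ^ 6 * Cs4 n ^ 2 ≤ Y q :=
    ev_Y1 (fun _ => 64 * 10 ^ 12 * ((n : ℝ) + 1) ^ 6 * Cs4 n ^ 2) fun _ => rfl
  have e3 : EvC fun q => 30 * cT * q.L₄ ^ 3 ≤ Y q := ev_Y1 (fun q => 30 * cT * q.L₄ ^ 3) fun _ => rfl
  refine (((ev_SN hn).and EvC.pos).and ((ev_k2.and e1).and ((e2.and e3).and
    (H493.INF.rowCr n)))).mono ?_
  rintro q ⟨⟨s, p⟩, ⟨k2, r⟩, ⟨n5, l3⟩, rc⟩
  have hX := s.s.X1
  have hC := s.C3
  have hC4 := s.C4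
  have hσ := s.s.σ0
  have hσ1 := s.s.σ2
  have e : q.R / q.σ = X q := rfl
  have C4 : 600 ≤ q.C₄ := by linarith
  have hCX : 600 ≤ q.C₄ * X q := by nlinarith
  have hYe : Y q ≤ Real.exp (q.C₄ * (q.R / q.σ)) := by
    rw [e]
    refine Real.exp_le_exp.2 ?_
    nlinarith
  refine ⟨s, ⟨hσ, r, by linarith, ?_, by rw [e]; linarith, l3.trans hYe, k2,
    le_trans (by linarith [s.s.Y64]) hYe⟩, fun d h z j h1 h4 => rc d h z j h1 h4,
    p.2.2.2.2.1.le, n5⟩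
  unfold Cst.L₄
  rw [le_div_iff₀ hσ]
  have : q.σ ≤ 1 := hσ1.trans (by norm_num)
  linarith

namespace NS

theorem sb (s : NS n q) (h : PkOk q d) (z : VV n) :
    Sb4 d.sx d.sy (fR q d) 1 (fun _ => BB n q) z ∧
      Sb4 d.sy d.sx (fR q d) 1 (fun _ => BB n q) z := by
  have hR := s.t.R1
  have hb := bs_of h hR s.s.s.ε1 (fR_sm s.s h)
  obtain ⟨a, b⟩ := (sb_pt n).choose_spec.2 q.R d.s₁ d.s₂ (fR q d) hb z
  have g0 : ∀ j, 0 ≤ gm q.R (fR q d) j z := fun j => gm_nn s.t.R0 _ _ _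
  have g1 : ∀ j ≤ 3, 0 ≤ gm q.R (fR q d) j z ∧ gm q.R (fR q d) j z ≤ 4 * dl q := by
    intro j hj
    refine ⟨g0 j, (gm_le hR (k := 3) (dl_pos q).le (fun i h1 h2 => s.rc d h z i h1 h2) hj).trans ?_⟩
    have : (j : ℝ) ≤ 3 := by exact_mod_cast hj
    exact mul_le_mul_of_nonneg_right (by linarith) (dl_pos q).le
  have hC := Cs4_one n
  have a' := a.mono g0 (by unfold Cs4; linarith : (sb_pt n).choose ≤ Cs4 n)
  have b' := b.mono g0 (by unfold Cs4; linarith : (sb_pt n).choose ≤ Cs4 n)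
  have d0 := dl_pos q
  exact ⟨Sb4_one hC (by positivity) g1 a', Sb4_one hC (by positivity) g1 b'⟩

/-- The slope dominates. -/
theorem bX (s : NS n q) (h : PkOk q d) {t : ℝ} (ht : d.l₀ q + 285 / 100 * q.R ≤ t) :
    10 ^ 12 * ((n : ℝ) + 1) ^ 6 * BB n q ^ 2 ≤ (q.σ / q.R) ^ 3 * deriv d.Θ t := by
  have hlow := s.t.low h ht
  have hX := s.s.s.X1
  have hX0 : 0 < X q := by linarith
  have hσ := s.s.s.σ0
  have hR := s.s.s.R0
  have e1 : (q.σ / q.R) ^ 3 = 1 / X q ^ 3 := by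
    unfold X
    field_simp
  have hc : 0 ≤ (q.σ / q.R) ^ 3 := by positivity
  refine le_trans ?_ (mul_le_mul_of_nonneg_left hlow hc)
  rw [e1, s.t.A4]
  have e2 : q.R / q.σ = X q := rfl
  rw [e2, div_mul_div_comm, one_mul, le_div_iff₀ (by positivity)]
  have hXY : X q ≤ Y q := by linarith [s.s.s.XY]
  have hX3 : X q ^ 3 ≤ Y q ^ 3 := pow_le_pow_left₀ hX0.le hXY 3
  have hY0 := s.s.s.Y0
  have hd2 : dl q ^ 2 = Real.exp (2 * (q.C₄ * X q / 100)) := by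
    unfold dl
    rw [← Real.exp_nat_mul, e2]
    push_cast
    rfl
  have e3 : 10 ^ 12 * ((n : ℝ) + 1) ^ 6 * BB n q ^ 2 * (X q ^ 3 * 4) =
      (64 * 10 ^ 12 * ((n : ℝ) + 1) ^ 6 * Cs4 n ^ 2) * (X q ^ 3 * dl q ^ 2) := by
    unfold BB
    ring
  rw [e3, hd2]
  have h1 : X q ^ 3 * Real.exp (2 * (q.C₄ * X q / 100)) ≤
      Y q ^ 3 * Real.exp (2 * (q.C₄ * X q / 100)) :=
    mul_le_mul_of_nonneg_right hX3 (Real.exp_pos _).le
  have h2 := mul_le_mul s.n5 h1 (by positivity) hY0.le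
  refine h2.trans ?_
  have e4 : Y q * (Y q ^ 3 * Real.exp (2 * (q.C₄ * X q / 100))) =
      Y q ^ 4 * Real.exp (2 * (q.C₄ * X q / 100)) := by ring
  rw [e4, SC.Y_pow, ← Real.exp_add]
  refine Real.exp_le_exp.2 ?_
  have hC4 := s.s.C4
  have hC := s.s.C3
  have : X q ≤ q.C₄ * X q := by nlinarith
  norm_num
  linarith

/-- The three tiny numbers in the flat region. -/
theorem tq (s : NS n q) (h : PkOk q d) {x : V n}
    (hx : d.l₀ q + 285 / 100 * q.R ≤ d.l x) {j : ℕ} (hj : j ≤ 2) :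
    |iteratedDeriv (j + 2) d.Θ (d.l x)| * HY.sq (wR n q.σ q.R x) ^ 2 ≤ 1 := by
  have hR := s.t.R0
  have hσ := s.s.s.σ0
  have hσ1 : q.σ ≤ 1 / 5000 := s.s.s.inf.σ1
  have hx' : lam0 q.R d.kap d.Gs + 285 / 100 * q.R ≤ levG n q.σ q.R d.kap d.Gs x := by
    rw [← h.lev.lit]
    exact hx
  have hth := Fl_th (kap := d.kap) (Gs := d.Gs) hσ hσ1 hR (x := x) (by linarith)
  have hl := levG_lit (kap := d.kap) (Gs := d.Gs) hσ hσ1 hth
  rw [← h.lev.lit] at hl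
  have e0 : lam0 q.R d.kap d.Gs = d.l₀ q := rfl
  rw [e0] at hl
  set Q := HY.sq (wR n q.σ q.R x)
  set v := (d.l x - d.l₀ q) / q.R with hv
  have ev : d.l x = d.l₀ q + q.R * v := by
    rw [hv]
    field_simp
    ring
  have hv1 : 285 / 100 ≤ v := by
    rw [hv, le_div_iff₀ hR]
    linarith
  have hQ : Q = 1 + 2 * q.σ * v := by
    have : q.R * v = q.R / (2 * q.σ) * (Q - 1) := by linarith
    field_simp at this
    nlinarith
  have hQ1 : Q ^ 2 ≤ (1 + v) ^ 2 := by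
    rw [hQ]
    refine pow_le_pow_left₀ (by positivity) ?_ 2
    nlinarith
  have h1 := s.t.tiny h hv1 hj
  rw [← ev] at h1
  exact (mul_le_mul_of_nonneg_left hQ1 (abs_nonneg _)).trans h1

theorem cpj (h : PkOk q d) {π : VV n → V n} (hπ : ContDiff ℝ ∞ π) (j : ℕ) :
    Ch.Cp univ (fun z => levG n q.σ q.R d.kap d.Gs (π z)) (iteratedDeriv j d.Θ)
      (iteratedDeriv (j + 1) d.Θ) (iteratedDeriv (j + 2) d.Θ) := by
  have hl : ContDiff ℝ ∞ (levG n q.σ q.R d.kap d.Gs) := by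
    rw [← h.lev.lit]
    exact h.lev.sm
  have sj : ∀ k, ContDiff ℝ ∞ (iteratedDeriv k d.Θ) := fun k => by
    rw [iteratedDeriv_eq_iterate]
    exact h.Θs.iterate_deriv k
  have dj : ∀ k t, HasDerivAt (iteratedDeriv k d.Θ) (iteratedDeriv (k + 1) d.Θ t) t := fun k t => by
    rw [iteratedDeriv_succ]
    exact ((sj k).differentiable (by simp) t).hasDerivAt
  exact Ch.Cp.of (hl.comp hπ).contDiffOn (sj j) (sj (j + 1)) (dj j) (dj (j + 1))

/-- The data of one point. -/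
theorem q1 (s : NS n q) (hn : 1 ≤ n) (h : PkOk q d) {σ τ : Sl (VV n) (Fin n)}
    {π π' : VV n → V n} {s₁ s₂ : MF n} (m : Mt q.ε q.R s₁) (m' : Mt q.ε q.R s₂)
    (p : Pj σ π s₁) (p' : Pj τ π' s₂) (ok : σ.Ok univ 1) (ot : τ.Ok univ 1) (cm : Cm σ τ univ)
    (zt : ∀ g : V n → ℝ, ContDiff ℝ ∞ g → ∀ z k, τ.D k (fun z => g (π z)) z = 0)
    (zs : ∀ g : V n → ℝ, ContDiff ℝ ∞ g → ∀ z k, σ.D k (fun z => g (π' z)) z = 0)
    (nD : ∀ (f : VV n → ℝ) (z : VV n) (i : Fin n), |σ.D i f z| ≤ ‖fderiv ℝ f z‖) {z : VV n}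
    (bf : Sb4 σ τ (fR q d) 1 (fun _ => BB n q) z)
    (hz : d.l₀ q + 285 / 100 * q.R ≤ d.l (π z)) :
    Q1 σ τ π π' s₁ s₂ q.σ q.R d.kap d.Gs q.ε d.Θ (deriv d.Θ) (deriv (deriv d.Θ))
      (iteratedDeriv 3 d.Θ) (iteratedDeriv 4 d.Θ) (fR q d) (hN q d) (BB n q) z := by
  have hR := s.t.R1
  have hR0 := s.t.R0
  have hσ := s.s.s.σ0
  have hσ1 : q.σ ≤ 1 / 5000 := s.s.s.inf.σ1
  have ll : levG n q.σ q.R d.kap d.Gs = d.l := h.lev.lit.symm
  have i1 : iteratedDeriv 1 d.Θ = deriv d.Θ := iteratedDeriv_one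
  have i2 : iteratedDeriv 2 d.Θ = deriv (deriv d.Θ) := by
    rw [iteratedDeriv_succ, iteratedDeriv_one]
  have i0 : iteratedDeriv 0 d.Θ = d.Θ := iteratedDeriv_zero
  have hd := dl_ge s.s
  have hY := s.s.s.Y64
  have B1 : 1 ≤ BB n q := by
    refine le_trans ?_ (BB_ge n q)
    refine le_trans ?_ hd
    have h1 : 1 ≤ Y q ^ 5 := one_le_pow₀ (by linarith)
    have h2 : 1 ≤ Real.exp (2 * q.C₃ * X q) := by
      rw [Real.one_le_exp_iff]
      have := s.s.s.X1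
      have := s.s.C3
      positivity
    nlinarith
  have hb := hN_bd s.s h z
  exact {
    hn := hn
    h0 := hσ
    h1 := hσ1
    hR := hR
    ε0 := s.εn
    ε1 := by
      have := s.s.s.ε2
      linarith
    m := m
    m' := m'
    p := p
    p' := p'
    ok := ok
    ot := ot
    cm := cm
    hz := by
      show lam0 q.R d.kap d.Gs + 21 / 20 * q.R < levG n q.σ q.R d.kap d.Gs (π z)
      rw [ll]
      have e0 : lam0 q.R d.kap d.Gs = d.l₀ q := rfl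
      rw [e0]
      linarith
    zt := zt
    zs := zs
    c₀ := by
      have := cpj h p.cπ 0
      rwa [i0, zero_add, i1, zero_add, i2] at this
    c₁ := by
      have := cpj h p.cπ 1
      rwa [i1, show 1 + 1 = 2 from rfl, i2] at this
    c₂ := by
      have := cpj h p.cπ 2
      rwa [i2] at this
    sT := h.Θs
    sf := fR_sm s.s h
    sN := hN_sm h
    B1 := B1
    bf := bf
    n0 := hb.1
    n1 := hb.2.trans (BB_ge n q)
    n2 := fun i => (nD _ z i).trans ((hN_fd s.s hn h z).trans (BB_ge n q))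
    t2 := by
      rw [ll]
      exact h.Θcv hR0 _
    q2 := by
      have h1 := s.tq h hz (j := 0) (by norm_num)
      rw [zero_add, i2] at h1
      rw [ll]
      exact (mul_le_mul_of_nonneg_right (le_abs_self _) (sq_nonneg _)).trans h1
    q3 := by
      rw [ll]
      exact s.tq h hz (j := 1) (by norm_num)
    q4 := by
      rw [ll]
      exact s.tq h hz (j := 2) (by norm_num)
    bX := by
      rw [ll]
      exact s.bX h hz }

end NS

theorem nD_x (s : MF n) (f : VV n → ℝ) (z : VV n) (i : Fin n) :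
    |(slx (fun _ => (1 : ℝ)) s).D i f z| ≤ ‖fderiv ℝ f z‖ := by
  have e : (slx (fun _ => (1 : ℝ)) s).D i f z = fderiv ℝ f z (Pi.single i 1, 0) := by
    show (1 : ℝ) * fderiv ℝ f z (Pi.single i 1, 0) = _
    rw [one_mul]
  rw [e]
  have h1 := (fderiv ℝ f z).le_opNorm ((Pi.single i 1, 0) : VV n)
  have h2 : ‖((Pi.single i 1, 0) : VV n)‖ = 1 := by
    rw [Prod.norm_mk]
    simp [Pi.norm_single]
  rw [h2, mul_one] at h1
  exact h1

theorem nD_y (s : MF n) (f : VV n → ℝ) (z : VV n) (i : Fin n) :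
    |(sly (fun _ => (1 : ℝ)) s).D i f z| ≤ ‖fderiv ℝ f z‖ := by
  have e : (sly (fun _ => (1 : ℝ)) s).D i f z = fderiv ℝ f z (0, Pi.single i 1) := by
    show (1 : ℝ) * fderiv ℝ f z (0, Pi.single i 1) = _
    rw [one_mul]
  rw [e]
  have h1 := (fderiv ℝ f z).le_opNorm ((0, Pi.single i 1) : VV n)
  have h2 : ‖((0, Pi.single i 1) : VV n)‖ = 1 := by
    rw [Prod.norm_mk]
    simp [Pi.norm_single]
  rw [h2, mul_one] at h1
  exact h1

/-- **Row SS: the very stiff slot.** -/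
theorem rowSS (hn : 1 ≤ n) : RowSS n := by
  refine (ev_NS hn).mono fun q s d h z => ?_
  have hR0 := s.t.R0
  have m₁ : Mt q.ε q.R d.s₁ := mt₁ (by norm_num) hR0 h.rg
  have m₂ : Mt q.ε q.R d.s₂ := mt₂ (by norm_num) hR0 h.rg
  have ox : d.sx.Ok univ 1 := ok_x m₁ m₂
  have oy : d.sy.Ok univ 1 := ok_y m₁ m₂
  have cm : Cm d.sx d.sy (univ : Set (VV n)) :=
    cm1 h.rg.sm₁ h.rg.sm₂ (fun x i j => ((h.rg.sy₁ x).apply i j).symm)
      (fun x i j => ((h.rg.sy₂ x).apply i j).symm)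
  have zx : ∀ g : V n → ℝ, ContDiff ℝ ∞ g → ∀ z k,
      d.sx.D k (fun z : VV n => g z.2) z = 0 := fun g hg z k =>
    Dx_snd (hg.differentiable (by simp) _) k
  have zy : ∀ g : V n → ℝ, ContDiff ℝ ∞ g → ∀ z k,
      d.sy.D k (fun z : VV n => g z.1) z = 0 := fun g hg z k =>
    Dy_fst (hg.differentiable (by simp) _) k
  have ll : levG n q.σ q.R d.kap d.Gs = d.l := h.lev.lit.symm
  have b := s.sb h z
  have ex : wW Prod.fst Prod.snd q.σ q.R d.kap d.Gs d.Θ (fR q d) = d.W q := by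
    funext w
    show fR q d w + d.Θ (levG n q.σ q.R d.kap d.Gs w.1) +
      d.Θ (levG n q.σ q.R d.kap d.Gs w.2) = fR q d w + (d.Θ (d.l w.1) + d.Θ (d.l w.2))
    rw [ll]
    ring
  have ey : wW Prod.snd Prod.fst q.σ q.R d.kap d.Gs d.Θ (fR q d) = d.W q := by
    funext w
    show fR q d w + d.Θ (levG n q.σ q.R d.kap d.Gs w.2) +
      d.Θ (levG n q.σ q.R d.kap d.Gs w.1) = fR q d w + (d.Θ (d.l w.1) + d.Θ (d.l w.2))
    rw [ll]
    ring
  have lx : wl Prod.fst q.σ q.R d.kap d.Gs (deriv d.Θ) (hN q d) = lmH q d := by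
    funext w
    show 1 / 100 * (q.σ / q.R) * (hN q d w + deriv d.Θ (levG n q.σ q.R d.kap d.Gs w.1)) =
      1 / 100 * (q.σ / q.R) * (hN q d w + deriv d.Θ (d.l w.1))
    rw [ll]
  have ly : wl Prod.snd q.σ q.R d.kap d.Gs (deriv d.Θ) (hN q d) = muH q d := by
    funext w
    show 1 / 100 * (q.σ / q.R) * (hN q d w + deriv d.Θ (levG n q.σ q.R d.kap d.Gs w.2)) =
      1 / 100 * (q.σ / q.R) * (hN q d w + deriv d.Θ (d.l w.2))
    rw [ll]
  constructor
  · intro hz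
    have Q := s.q1 hn h m₁ m₂ (pj_x d.s₁) (pj_y d.s₂) ox oy cm zy zx (nD_x d.s₁) b.1 hz
    have S := Q.stf
    rw [ex, lx, ll] at S
    exact S
  · intro hz
    have Q := s.q1 hn h m₂ m₁ (pj_y d.s₂) (pj_x d.s₁) oy ox cm.symm zx zy (nD_y d.s₂) b.2 hz
    have S := Q.stf
    rw [ey, ly, ll] at S
    exact S

end Vale.Agent.P088.R2.H406.INF
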