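import Vale.Agent.P088.R2.H168.INF.Spec2
import Vale.Agent.P088.R2.H168.INF.H1z
import Vale.Agent.P088.R2.H380.INF.Sbp

/-!
# P088 (helper406), leaf iH: a very stiff slot at one point

`W = f + T(L) + T(L')` with `T' (L)` much larger than all the derivatives of `f`, in the flat region
of the slot `σ`.
-/

open MeasureTheory Set Filter
open scoped ContDiff Topology Matrix

noncomputable section

namespace Vale.Agent.P088.R2.H406.INF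

open Vale.Agent.P088.R2.H961.GW Vale.Agent.P088.R2.H960.W Vale.Agent.P088.R2.H644
open Vale.Agent.P088.R2.H551.E Vale.Agent.P088.LR Vale.Agent.P088.HY Vale.Agent.P088.R2.H475
open Vale.Agent.P088.R2.H269.INF Vale.Agent.P088.R2.H168.INF

variable {n : ℕ}

/-- The data of one point: the slot `σ` is very stiff. -/
structure Q1 (σ τ : Sl (VV n) (Fin n)) (π π' : VV n → V n) (s s' : MF n) (sg R kap Gs ε : ℝ)
    (T T₁ T₂ T₃ T₄ : ℝ → ℝ) (f hN : VV n → ℝ) (B : ℝ) (z : VV n) : Prop where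
  hn : 1 ≤ n
  h0 : 0 < sg
  h1 : sg ≤ 1 / 5000
  hR : 1 ≤ R
  ε0 : 0 ≤ ε
  ε1 : ε * n ≤ 1 / 2
  m : Mt ε R s
  m' : Mt ε R s'
  p : Pj σ π s
  p' : Pj τ π' s'
  ok : σ.Ok univ 1
  ot : τ.Ok univ 1
  cm : Cm σ τ univ
  hz : z ∈ Fl π sg R kap Gs
  zt : ∀ g : V n → ℝ, ContDiff ℝ ∞ g → ∀ z k, τ.D k (fun z => g (π z)) z = 0
  zs : ∀ g : V n → ℝ, ContDiff ℝ ∞ g → ∀ z k, σ.D k (fun z => g (π' z)) z = 0
  c₀ : Ch.Cp univ (fun z => levG n sg R kap Gs (π z)) T T₁ T₂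
  c₁ : Ch.Cp univ (fun z => levG n sg R kap Gs (π z)) T₁ T₂ T₃
  c₂ : Ch.Cp univ (fun z => levG n sg R kap Gs (π z)) T₂ T₃ T₄
  sT : ContDiff ℝ ∞ T
  sf : ContDiff ℝ ∞ f
  sN : ContDiff ℝ ∞ hN
  B1 : 1 ≤ B
  bf : Sb4 σ τ f 1 (fun _ => B) z
  n0 : 0 ≤ hN z
  n1 : hN z ≤ B
  n2 : ∀ i, |σ.D i hN z| ≤ B
  t2 : 0 ≤ T₂ (levG n sg R kap Gs (π z))
  q2 : T₂ (levG n sg R kap Gs (π z)) * HY.sq (wR n sg R (π z)) ^ 2 ≤ 1
  q3 : |T₃ (levG n sg R kap Gs (π z))| * HY.sq (wR n sg R (π z)) ^ 2 ≤ 1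
  q4 : |T₄ (levG n sg R kap Gs (π z))| * HY.sq (wR n sg R (π z)) ^ 2 ≤ 1
  bX : 10 ^ 12 * ((n : ℝ) + 1) ^ 6 * B ^ 2 ≤ (sg / R) ^ 3 * T₁ (levG n sg R kap Gs (π z))

theorem amgm {P u v : ℝ} (hu : 0 ≤ u) (hv : 0 ≤ v) (h : P ^ 2 ≤ 4 * (u * v)) (x y : ℝ) :
    P * (x * y) ≤ u * x ^ 2 + v * y ^ 2 := by
  refine abs_le_of_sq_le_sq' ?_ (by positivity) |>.2
  have h1 : (P * (x * y)) ^ 2 = P ^ 2 * (x ^ 2 * y ^ 2) := by ring
  have h2 : P ^ 2 * (x ^ 2 * y ^ 2) ≤ 4 * (u * v) * (x ^ 2 * y ^ 2) :=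
    mul_le_mul_of_nonneg_right h (by positivity)
  have h3 := sq_nonneg (u * x ^ 2 - v * y ^ 2)
  rw [h1]
  nlinarith

section gen

variable {E ι κ : Type*} [NormedAddCommGroup E] [NormedSpace ℝ E] [Fintype ι] [Fintype κ]

theorem Sb4_one {σ : Sl E ι} {τ : Sl E κ} {f : E → ℝ} {C b : ℝ} {z : E} (hC : 1 ≤ C) (_hb : 0 ≤ b)
    {g : ℕ → ℝ} (hg : ∀ j ≤ 3, 0 ≤ g j ∧ g j ≤ b) (h : Sb4 σ τ f C g z) :
    Sb4 σ τ f 1 (fun _ => C * b) z := by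
  have k : ∀ j ≤ 3, C * g j ≤ 1 * (C * b) := fun j hj => by
    rw [one_mul]
    exact mul_le_mul_of_nonneg_left (hg j hj).2 (by linarith)
  have k2 : C * g 1 ^ 2 ≤ 1 * (C * b) ^ 2 := by
    have h1 := pow_le_pow_left₀ (hg 1 (by norm_num)).1 (hg 1 (by norm_num)).2 2
    have h2 := mul_le_mul_of_nonneg_left h1 (by linarith : 0 ≤ C)
    have h3 : C * b ^ 2 ≤ C ^ 2 * b ^ 2 :=
      mul_le_mul_of_nonneg_right (by nlinarith) (sq_nonneg b)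
    rw [one_mul, mul_pow]
    linarith
  exact {
    d1 := fun i => (h.d1 i).trans (k 0 (by norm_num))
    d1' := fun i => (h.d1' i).trans (k 0 (by norm_num))
    d2 := fun i j => (h.d2 i j).trans (k 1 (by norm_num))
    d2' := fun i j => (h.d2' i j).trans (k 1 (by norm_num))
    dm := fun i j => (h.dm i j).trans (k 1 (by norm_num))
    L1 := h.L1.trans (k 1 (by norm_num))
    L1' := h.L1'.trans (k 1 (by norm_num))
    l1 := fun i => (h.l1 i).trans (k 2 (by norm_num))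
    l2 := fun i => (h.l2 i).trans (k 2 (by norm_num))
    l3 := fun i => (h.l3 i).trans (k 2 (by norm_num))
    l4 := fun i => (h.l4 i).trans (k 2 (by norm_num))
    m1 := h.m1.trans (k 3 (by norm_num))
    m2 := h.m2.trans (k 3 (by norm_num))
    m3 := h.m3.trans (k 3 (by norm_num))
    m4 := h.m4.trans (k 3 (by norm_num))
    g2 := h.g2.trans k2
    g2' := h.g2'.trans k2
    gm := h.gm.trans k2 }

end gen

section mm

variable {σ τ : Sl (VV n) (Fin n)} {f : VV n → ℝ} {z : VV n}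

/-- The mixed form from bounds. -/
theorem MM_bd {b : ℝ} (hs : ∀ i j, |σ.s i j z| ≤ 2) (hs' : ∀ i j, |τ.s i j z| ≤ 2)
    (hb : ∀ i k, |σ.D i (τ.D k f) z| ≤ b) (A B : Fin n → ℝ) :
    |MM σ τ f z A B| ≤ 4 * (n : ℝ) ^ 2 * b * ((∑ i, |A i|) * ∑ i, |B i|) := by
  have h1 : ∀ i k, |Ch.Mc σ τ f i k z| ≤ 4 * (n : ℝ) ^ 2 * b := by
    intro i k
    unfold Ch.Mc
    have h2 : ∀ j l, |σ.s i j z * τ.s k l z * σ.D j (τ.D l f) z| ≤ 4 * b := by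
      intro j l
      rw [abs_mul, abs_mul]
      have h3 : |σ.s i j z| * |τ.s k l z| ≤ 2 * 2 :=
        mul_le_mul (hs i j) (hs' k l) (abs_nonneg _) (by norm_num)
      have h4 := mul_le_mul h3 (hb j l) (abs_nonneg _) (by norm_num)
      linarith
    calc |∑ j, ∑ l, σ.s i j z * τ.s k l z * σ.D j (τ.D l f) z| ≤
        ∑ j : Fin n, ∑ l : Fin n, 4 * b :=
          (Finset.abs_sum_le_sum_abs _ _).trans (Finset.sum_le_sum fun j _ =>
            (Finset.abs_sum_le_sum_abs _ _).trans (Finset.sum_le_sum fun l _ => h2 j l))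
      _ = 4 * (n : ℝ) ^ 2 * b := by
          simp only [Finset.sum_const, Finset.card_univ, Fintype.card_fin, nsmul_eq_mul]
          ring
  unfold MM
  rw [Finset.sum_mul_sum, Finset.mul_sum]
  refine (Finset.abs_sum_le_sum_abs _ _).trans (Finset.sum_le_sum fun i _ => ?_)
  rw [Finset.mul_sum]
  refine (Finset.abs_sum_le_sum_abs _ _).trans (Finset.sum_le_sum fun k _ => ?_)
  rw [abs_mul, abs_mul, mul_assoc]
  exact mul_le_mul_of_nonneg_right (h1 i k) (by positivity)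

end mm

section pt

variable {σ τ : Sl (VV n) (Fin n)} {π π' : VV n → V n} {s s' : MF n} {sg R kap Gs ε : ℝ}
  {T T₁ T₂ T₃ T₄ : ℝ → ℝ} {f hN : VV n → ℝ} {B : ℝ} {z : VV n}

/-- The weight. -/
def wW (π π' : VV n → V n) (sg R kap Gs : ℝ) (T : ℝ → ℝ) (f : VV n → ℝ) (z : VV n) : ℝ :=
  f z + T (levG n sg R kap Gs (π z)) + T (levG n sg R kap Gs (π' z))

/-- The part seen by `σ`. -/
def wV (π : VV n → V n) (sg R kap Gs : ℝ) (T : ℝ → ℝ) (f : VV n → ℝ) (z : VV n) : ℝ :=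
  f z + T (levG n sg R kap Gs (π z))

namespace Q1

variable (Q : Q1 σ τ π π' s s' sg R kap Gs ε T T₁ T₂ T₃ T₄ f hN B z)

include Q

theorem R0 : 0 < R := by linarith [Q.hR]

theorem sL : ContDiff ℝ ∞ (levG n sg R kap Gs) := levG_smooth Q.h0 Q.h1

theorem sp : Sm univ fun z => T (levG n sg R kap Gs (π z)) :=
  (Q.sT.comp (Q.sL.comp Q.p.cπ)).contDiffOn

theorem sr : Sm univ fun z => T (levG n sg R kap Gs (π' z)) :=
  (Q.sT.comp (Q.sL.comp Q.p'.cπ)).contDiffOn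

theorem sff : Sm univ f := Q.sf.contDiffOn

/-- `D_i W` in the slot `σ`. -/
theorem ex : ∀ z ∈ (univ : Set (VV n)), ∀ i, σ.D i (wW π π' sg R kap Gs T f) z =
    σ.D i (wV π sg R kap Gs T f) z :=
  D_add0 isOpen_univ (Q.sff.add Q.sp) Q.sr fun z _ i => Q.zs _ (Q.sT.comp Q.sL) z i

theorem ey : ∀ z ∈ (univ : Set (VV n)), ∀ k, τ.D k (wW π π' sg R kap Gs T f) z =
    τ.D k (fun z => f z + T (levG n sg R kap Gs (π' z))) z := fun z hz k => by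
  have e1 := D_add τ isOpen_univ (Q.sff.add Q.sp) Q.sr k hz
  have e2 := D_add τ isOpen_univ Q.sff Q.sp k hz
  have e3 := D_add τ isOpen_univ Q.sff Q.sr k hz
  have e4 : τ.D k (fun z => T (levG n sg R kap Gs (π z))) z = 0 :=
    Q.zt _ (Q.sT.comp Q.sL) z k
  have e5 : τ.D k (wW π π' sg R kap Gs T f) z = τ.D k (fun z => f z +
    T (levG n sg R kap Gs (π z)) + T (levG n sg R kap Gs (π' z))) z := rfl
  rw [e5, e1, e2, e3, e4, add_zero]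

theorem ef : ∀ z ∈ (univ : Set (VV n)), ∀ k, τ.D k (wV π sg R kap Gs T f) z = τ.D k f z :=
  D_add0 isOpen_univ Q.sff Q.sp fun z _ k => Q.zt _ (Q.sT.comp Q.sL) z k

theorem ef' : ∀ z ∈ (univ : Set (VV n)), ∀ i,
    σ.D i (fun z => f z + T (levG n sg R kap Gs (π' z))) z = σ.D i f z :=
  D_add0 isOpen_univ Q.sff Q.sr fun z _ k => Q.zs _ (Q.sT.comp Q.sL) z k

theorem em (z : VV n) (i k : Fin n) :
    σ.D i (τ.D k (wW π π' sg R kap Gs T f)) z = σ.D i (τ.D k f) z := by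
  have hz := mem_univ z
  rw [D_congr σ isOpen_univ (fun z hz => Q.ey z hz k) i hz, cD Q.cm (Q.sff.add Q.sr) hz i k,
    D_congr τ isOpen_univ (fun z hz => Q.ef' z hz i) k hz, ← cD Q.cm Q.sff hz i k]

theorem eL : ∀ z ∈ (univ : Set (VV n)), σ.Λ (wW π π' sg R kap Gs T f) z =
    σ.Λ (wV π sg R kap Gs T f) z := fun _ hz => L_of_D isOpen_univ Q.ex hz

theorem eL' : ∀ z ∈ (univ : Set (VV n)), τ.Λ (wW π π' sg R kap Gs T f) z =
    τ.Λ (fun z => f z + T (levG n sg R kap Gs (π' z))) z := fun _ hz => L_of_D isOpen_univ Q.ey hz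

theorem x1 : ∀ z ∈ (univ : Set (VV n)), ∀ k,
    τ.D k (σ.Λ (wW π π' sg R kap Gs T f)) z = τ.D k (σ.Λ f) z := by
  intro z hz k
  rw [D_congr τ isOpen_univ Q.eL k hz]
  have s1 : Sm univ (wV π sg R kap Gs T f) := Q.sff.add Q.sp
  rw [← L_D Q.ok Q.ot Q.cm s1 k hz, ← L_D Q.ok Q.ot Q.cm Q.sff k hz]
  exact L_of_D isOpen_univ (fun z hz i => D_congr σ isOpen_univ (fun z hz => Q.ef z hz k) i hz) hz

theorem x2 : ∀ z ∈ (univ : Set (VV n)), ∀ i,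
    σ.D i (τ.Λ (wW π π' sg R kap Gs T f)) z = σ.D i (τ.Λ f) z := by
  intro z hz i
  rw [D_congr σ isOpen_univ Q.eL' i hz, ← L_D Q.ot Q.ok Q.cm.symm (Q.sff.add Q.sr) i hz,
    ← L_D Q.ot Q.ok Q.cm.symm Q.sff i hz]
  exact L_of_D isOpen_univ (fun z hz k => D_congr τ isOpen_univ (fun z hz => Q.ef' z hz i) k hz) hz

theorem eM2 : M2 σ τ (wW π π' sg R kap Gs T f) (wW π π' sg R kap Gs T f) z = M2 σ τ f f z := by
  unfold M2
  refine Finset.sum_congr rfl fun k _ => Finset.sum_congr rfl fun l _ => ?_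
  rw [G_of_D (fun i => Q.em z i k) fun i => Q.em z i l]

theorem eLL : σ.Λ (τ.Λ (wW π π' sg R kap Gs T f)) z = σ.Λ (τ.Λ f) z :=
  L_of_D isOpen_univ Q.x2 (mem_univ z)

theorem eMM (A B' : Fin n → ℝ) :
    MM σ τ (wW π π' sg R kap Gs T f) z A B' = MM σ τ f z A B' := by
  unfold MM Ch.Mc
  simp only [Q.em]

theorem eHH (A : Fin n → ℝ) : HH σ (wW π π' sg R kap Gs T f) z A =
    HH σ (wV π sg R kap Gs T f) z A := by
  have e1 : ∀ i j, σ.D i (σ.D j (wW π π' sg R kap Gs T f)) z =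
      σ.D i (σ.D j (wV π sg R kap Gs T f)) z := fun i j =>
    D_congr σ isOpen_univ (fun z hz => Q.ex z hz j) i (mem_univ z)
  have e2 : ∀ i, σ.D i (wW π π' sg R kap Gs T f) z = σ.D i (wV π sg R kap Gs T f) z :=
    fun i => Q.ex z (mem_univ z) i
  unfold HH Sl.Hc
  simp only [e1, e2]

/-! ### The quantities -/

theorem c0 : 0 < sg / R := div_pos Q.h0 Q.R0

theorem c1' : sg / R ≤ 1 := by
  rw [div_le_one Q.R0]
  linarith [Q.h1, Q.hR]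

theorem q1 : 1 ≤ HY.sq (wR n sg R (π z)) := Fl_q Q.p Q.m Q.hn Q.h0 Q.h1 Q.R0 Q.hz

theorem n1' : (1 : ℝ) ≤ n := by exact_mod_cast Q.hn

theorem sL' : Sm univ fun z => levG n sg R kap Gs (π z) := Q.c₀.su

theorem hD (i : Fin n) : σ.D i (wV π sg R kap Gs T f) z =
    σ.D i f z + T₁ (levG n sg R kap Gs (π z)) * wR n sg R (π z) i := by
  have e1 := D_add σ isOpen_univ Q.sff Q.sp i (mem_univ z)
  have e2 : σ.D i (fun z => T (levG n sg R kap Gs (π z))) z =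
    T₁ (levG n sg R kap Gs (π z)) * σ.D i (fun z => levG n sg R kap Gs (π z)) z :=
    Ch.D_comp isOpen_univ Q.c₀ i (mem_univ z)
  have e3 : σ.D i (fun z => levG n sg R kap Gs (π z)) z = wR n sg R (π z) i :=
    Fl_D Q.p Q.m Q.hn Q.h0 Q.h1 Q.R0 Q.hz i
  have e4 : σ.D i (wV π sg R kap Gs T f) z =
    σ.D i (fun z => f z + T (levG n sg R kap Gs (π z))) z := rfl
  rw [e4, e1, e2, e3]

theorem hHH (A : Fin n → ℝ) : HH σ (wV π sg R kap Gs T f) z A = HH σ f z A +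
    (T₁ (levG n sg R kap Gs (π z)) * (sg / R * ss σ A z) + T₂ (levG n sg R kap Gs (π z)) *
      H168.INF.gA σ (fun z => levG n sg R kap Gs (π z)) z A ^ 2) := by
  have e1 := HH_eq_add Q.ok Q.sff Q.sp (mem_univ z) A
  have e2 := HH_comp Q.ok Q.c₀ (mem_univ z) A
  have e3 := Fl_HL Q.p Q.m Q.hn Q.h0 Q.h1 Q.R0 Q.hz A
  have e4 : HH σ (wV π sg R kap Gs T f) z A =
    HH σ (fun z => f z + T (levG n sg R kap Gs (π z))) z A := rfl
  rw [e4, e1, e2, e3]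

theorem hL : σ.Λ (wV π sg R kap Gs T f) z = σ.Λ f z +
    (T₁ (levG n sg R kap Gs (π z)) * (n * (sg / R)) +
      T₂ (levG n sg R kap Gs (π z)) * HY.sq (wR n sg R (π z))) := by
  have e1 := L_add Q.ok Q.sff Q.sp (mem_univ z)
  have e2 := Ch.L_comp Q.ok Q.c₀ (mem_univ z)
  have e3 := Fl_LL Q.p Q.m Q.hn Q.h0 Q.h1 Q.R0 Q.hz
  have e5 := Fl_GL Q.p Q.m Q.hn Q.h0 Q.h1 Q.R0 Q.hz
  have e4 : σ.Λ (wV π sg R kap Gs T f) z =
    σ.Λ (fun z => f z + T (levG n sg R kap Gs (π z))) z := rfl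
  rw [e4, e1, e2, e3, e5]

theorem hDL (i : Fin n) : σ.D i (σ.Λ (wV π sg R kap Gs T f)) z = σ.D i (σ.Λ f) z +
    wR n sg R (π z) i * (T₂ (levG n sg R kap Gs (π z)) * (n * (sg / R)) +
      T₃ (levG n sg R kap Gs (π z)) * HY.sq (wR n sg R (π z)) +
      T₂ (levG n sg R kap Gs (π z)) * (2 * (sg / R))) := by
  have hz := mem_univ z
  have sp' := Q.ok.sL Q.sL'
  have sG := Q.ok.sG Q.sL' Q.sL'
  have sT1 : Sm univ fun z => T₁ (levG n sg R kap Gs (π z)) := Q.c₁.s0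
  have sT2 : Sm univ fun z => T₂ (levG n sg R kap Gs (π z)) := Q.c₂.s0
  have e0 : ∀ z ∈ (univ : Set (VV n)), σ.Λ (wV π sg R kap Gs T f) z = σ.Λ f z +
      (T₁ (levG n sg R kap Gs (π z)) * σ.Λ (fun z => levG n sg R kap Gs (π z)) z +
        T₂ (levG n sg R kap Gs (π z)) * σ.Γ (fun z => levG n sg R kap Gs (π z))
          (fun z => levG n sg R kap Gs (π z)) z) := fun z hz => by
    have e1 := L_add Q.ok Q.sff Q.sp hz
    have e2 := Ch.L_comp Q.ok Q.c₀ hz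
    have e4 : σ.Λ (wV π sg R kap Gs T f) z =
      σ.Λ (fun z => f z + T (levG n sg R kap Gs (π z))) z := rfl
    rw [e4, e1, e2]
  rw [D_congr σ isOpen_univ e0 i hz,
    D_add σ isOpen_univ (Q.ok.sL Q.sff) ((sT1.mul sp').add (sT2.mul sG)) i hz,
    D_add σ isOpen_univ (sT1.mul sp') (sT2.mul sG) i hz, D_mul σ isOpen_univ sT1 sp' i hz,
    D_mul σ isOpen_univ sT2 sG i hz, Ch.D_comp isOpen_univ Q.c₁ i hz,
    Ch.D_comp isOpen_univ Q.c₂ i hz, Fl_DLL Q.p Q.m Q.hn Q.h0 Q.h1 Q.R0 Q.hz,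
    Fl_DG Q.p Q.m Q.hn Q.h0 Q.h1 Q.R0 Q.hz, Fl_LL Q.p Q.m Q.hn Q.h0 Q.h1 Q.R0 Q.hz,
    Fl_GL Q.p Q.m Q.hn Q.h0 Q.h1 Q.R0 Q.hz, Fl_D Q.p Q.m Q.hn Q.h0 Q.h1 Q.R0 Q.hz]
  ring

theorem tq2 : T₂ (levG n sg R kap Gs (π z)) * HY.sq (wR n sg R (π z)) ≤ 1 := by
  have h1 := Q.q1
  have h2 := Q.q2
  have h3 := Q.t2
  nlinarith [mul_nonneg h3 (by linarith : (0 : ℝ) ≤ HY.sq (wR n sg R (π z)))]

theorem t2l : T₂ (levG n sg R kap Gs (π z)) ≤ 1 := by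
  have h1 := Q.q1
  have h2 := Q.tq2
  have h3 := Q.t2
  nlinarith

theorem nc : (n : ℝ) * (sg / R) ≤ n := by
  have := mul_le_mul_of_nonneg_left Q.c1' (by linarith [Q.n1'] : (0 : ℝ) ≤ n)
  linarith

theorem hLLp : |σ.Λ (σ.Λ fun z => T (levG n sg R kap Gs (π z))) z| ≤ 10 * (n : ℝ) ^ 2 := by
  rw [LL_comp Q.ok Q.c₀ Q.c₁ Q.c₂ (mem_univ z), Fl_LLL Q.p Q.m Q.hn Q.h0 Q.h1 Q.R0 Q.hz,
    Fl_GLL Q.p Q.m Q.hn Q.h0 Q.h1 Q.R0 Q.hz, Fl_LL Q.p Q.m Q.hn Q.h0 Q.h1 Q.R0 Q.hz,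
    Fl_GL Q.p Q.m Q.hn Q.h0 Q.h1 Q.R0 Q.hz, Fl_LG Q.p Q.m Q.hn Q.h0 Q.h1 Q.R0 Q.hz,
    Fl_GG Q.p Q.m Q.hn Q.h0 Q.h1 Q.R0 Q.hz]
  have a1 := Q.q1
  have a2 := Q.q2
  have a3 := Q.q3
  have a4 := Q.q4
  have a5 := Q.t2
  have a6 := Q.t2l
  have a7 := Q.tq2
  have a8 := Q.c0
  have a9 := Q.c1'
  have b1 := Q.n1'
  have b2 := Q.nc
  set q := HY.sq (wR n sg R (π z))
  set t := T₂ (levG n sg R kap Gs (π z))
  set t3 := T₃ (levG n sg R kap Gs (π z))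
  set t4 := T₄ (levG n sg R kap Gs (π z))
  set c := sg / R
  have c2 : c ^ 2 ≤ 1 := by nlinarith
  have nc0 : 0 ≤ (n : ℝ) * c := by positivity
  have k3 : |t3| * q ≤ 1 := by
    have := mul_le_mul_of_nonneg_left (show q ≤ q ^ 2 by nlinarith) (abs_nonneg t3)
    linarith
  have e : T₁ (levG n sg R kap Gs (π z)) * 0 + 2 * (t * 0) +
      n * c * (t * (n * c) + t3 * q) + (t * (2 * n * c ^ 2) + 2 * (t3 * (2 * c * q)) +
      q * (t3 * (n * c) + t4 * q)) =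
      (n * c) * (n * c) * t + 2 * ((n * c) * (t3 * q)) + 2 * n * c ^ 2 * t + 4 * c * (t3 * q) +
        t4 * q ^ 2 := by ring
  rw [e]
  have q0 : 0 ≤ q := by linarith
  have m1 : |(n * c) * (n * c) * t| ≤ (n : ℝ) ^ 2 := by
    rw [abs_of_nonneg (by positivity)]
    have : (n * c) * (n * c) ≤ (n : ℝ) * n := mul_le_mul b2 b2 nc0 (by linarith)
    nlinarith
  have m2 : |2 * ((n * c) * (t3 * q))| ≤ 2 * (n : ℝ) ^ 2 := by
    rw [abs_mul, abs_mul, abs_mul t3, abs_of_nonneg q0, abs_of_nonneg nc0, abs_two]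
    have h0 : 0 ≤ |t3| * q := by positivity
    have h1 : n * c * (|t3| * q) ≤ n * 1 := mul_le_mul b2 k3 h0 (by linarith)
    nlinarith
  have m3 : |2 * n * c ^ 2 * t| ≤ 2 * (n : ℝ) ^ 2 := by
    rw [abs_of_nonneg (by positivity)]
    have h1 : 2 * n * c ^ 2 ≤ 2 * n * 1 := mul_le_mul_of_nonneg_left c2 (by linarith)
    have h2 := mul_le_mul h1 a6 a5 (by linarith)
    nlinarith
  have m4 : |4 * c * (t3 * q)| ≤ 4 * (n : ℝ) ^ 2 := by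
    rw [abs_mul, abs_mul t3, abs_of_nonneg q0, abs_of_nonneg (by positivity : 0 ≤ 4 * c)]
    have h0 : 0 ≤ |t3| * q := by positivity
    have h1 : 4 * c * (|t3| * q) ≤ 4 * 1 := mul_le_mul (by linarith) k3 h0 (by linarith)
    nlinarith
  have m5 : |t4 * q ^ 2| ≤ (n : ℝ) ^ 2 := by
    rw [abs_mul, abs_of_nonneg (sq_nonneg q)]
    nlinarith
  have h1 := abs_add_le ((n * c) * (n * c) * t + 2 * ((n * c) * (t3 * q)) + 2 * n * c ^ 2 * t +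
    4 * c * (t3 * q)) (t4 * q ^ 2)
  have h2 := abs_add_le ((n * c) * (n * c) * t + 2 * ((n * c) * (t3 * q)) + 2 * n * c ^ 2 * t)
    (4 * c * (t3 * q))
  have h3 := abs_add_le ((n * c) * (n * c) * t + 2 * ((n * c) * (t3 * q))) (2 * n * c ^ 2 * t)
  have h4 := abs_add_le ((n * c) * (n * c) * t) (2 * ((n * c) * (t3 * q)))
  linarith

theorem hLL : |σ.Λ (σ.Λ (wV π sg R kap Gs T f)) z| ≤ B + 10 * (n : ℝ) ^ 2 := by
  have e0 : ∀ z ∈ (univ : Set (VV n)), σ.Λ (wV π sg R kap Gs T f) z = σ.Λ f z +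
      σ.Λ (fun z => T (levG n sg R kap Gs (π z))) z := fun z hz => L_add Q.ok Q.sff Q.sp hz
  rw [L_congr Q.ok e0 (mem_univ z), L_add Q.ok (Q.ok.sL Q.sff) (Q.ok.sL Q.sp) (mem_univ z)]
  refine (abs_add_le _ _).trans (add_le_add ?_ Q.hLLp)
  have := Q.bf.m1
  linarith

end Q1

end pt

end Vale.Agent.P088.R2.H406.INF
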