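import Vale.Agent.P088.R2.H406.INF.SSp

/-!
# P088 (helper406), leaf iH: a very stiff slot at one point, the clauses
-/

open MeasureTheory Set Filter
open scoped ContDiff Topology Matrix

noncomputable section

namespace Vale.Agent.P088.R2.H406.INF

open Vale.Agent.P088.R2.H961.GW Vale.Agent.P088.R2.H960.W Vale.Agent.P088.R2.H644
open Vale.Agent.P088.R2.H551.E Vale.Agent.P088.LR Vale.Agent.P088.HY Vale.Agent.P088.R2.H475
open Vale.Agent.P088.R2.H269.INF Vale.Agent.P088.R2.H168.INF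

variable {n : ℕ}

/-- The multiplier. -/
def wl (π : VV n → V n) (sg R kap Gs : ℝ) (T₁ : ℝ → ℝ) (hN : VV n → ℝ) (z : VV n) : ℝ :=
  1 / 100 * (sg / R) * (hN z + T₁ (levG n sg R kap Gs (π z)))

section pt

variable {σ τ : Sl (VV n) (Fin n)} {π π' : VV n → V n} {s s' : MF n} {sg R kap Gs ε : ℝ}
  {T T₁ T₂ T₃ T₄ : ℝ → ℝ} {f hN : VV n → ℝ} {B : ℝ} {z : VV n}

/-- The numbers. -/
structure Nm (n : ℕ) (c X B m : ℝ) : Prop where
  n1 : (1 : ℝ) ≤ n
  c0 : 0 < c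
  c1 : c ≤ 1
  B1 : 1 ≤ B
  X0 : 0 < X
  b3 : 10 ^ 12 * ((n : ℝ) + 1) ^ 6 * B ^ 2 ≤ c ^ 3 * X
  b2 : 10 ^ 12 * ((n : ℝ) + 1) ^ 6 * B ^ 2 ≤ c ^ 2 * X
  b1 : 10 ^ 12 * ((n : ℝ) + 1) ^ 6 * B ^ 2 ≤ c * X
  b0 : 10 ^ 12 * ((n : ℝ) + 1) ^ 6 * B ^ 2 ≤ X
  m1 : X ≤ m
  m2 : m ≤ 1001 / 1000 * X
  n3 : (n : ℝ) ^ 6 ≤ ((n : ℝ) + 1) ^ 6
  n4 : 1 ≤ ((n : ℝ) + 1) ^ 6

namespace Nm

variable {c X m : ℝ}

theorem mk' (n1 : (1 : ℝ) ≤ n) (c0 : 0 < c) (c1 : c ≤ 1) (B1 : 1 ≤ B)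
    (b3 : 10 ^ 12 * ((n : ℝ) + 1) ^ 6 * B ^ 2 ≤ c ^ 3 * X) (m1 : X ≤ m) (m2 : m ≤ X + B) :
    Nm n c X B m := by
  have n4 : 1 ≤ ((n : ℝ) + 1) ^ 6 := one_le_pow₀ (by linarith)
  have B2 : 1 ≤ B ^ 2 := one_le_pow₀ B1
  have BB : B ≤ B ^ 2 := by nlinarith
  have P : 0 < 10 ^ 12 * ((n : ℝ) + 1) ^ 6 * B ^ 2 := by positivity
  have X0 : 0 < X := by
    by_contra hc
    have : c ^ 3 * X ≤ 0 := mul_nonpos_of_nonneg_of_nonpos (by positivity) (not_lt.1 hc)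
    linarith
  have k1 : c ^ 3 * X ≤ c ^ 2 * X := by
    refine mul_le_mul_of_nonneg_right ?_ X0.le
    exact pow_le_pow_of_le_one c0.le c1 (by norm_num)
  have k2 : c ^ 2 * X ≤ c * X := by
    refine mul_le_mul_of_nonneg_right ?_ X0.le
    nlinarith
  have k3 : c * X ≤ X := by nlinarith
  have b0 : 10 ^ 12 * ((n : ℝ) + 1) ^ 6 * B ^ 2 ≤ X := by linarith
  refine ⟨n1, c0, c1, B1, X0, b3, by linarith, by linarith, b0, m1, ?_, ?_, n4⟩
  · have h1 : 10 ^ 12 * B ≤ X := by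
      refine le_trans ?_ b0
      nlinarith
    linarith
  · exact pow_le_pow_left₀ (by linarith) (by linarith) 6

/-- Consequences: `B² n^k` against the powers of `X`. -/
theorem npow (N : Nm n c X B m) {k : ℕ} (hk : k ≤ 6) : (n : ℝ) ^ k ≤ ((n : ℝ) + 1) ^ 6 :=
  (pow_le_pow_left₀ (by linarith [N.n1]) (by linarith) k).trans
    (pow_le_pow_right₀ (by linarith [N.n1]) hk)

theorem B2 (N : Nm n c X B m) : B ≤ B ^ 2 := by nlinarith [N.B1]

theorem key (N : Nm n c X B m) {k : ℕ} (hk : k ≤ 6) {b Y : ℝ} (b0 : 0 ≤ b) (hb : b ≤ B ^ 2)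
    (hY : 10 ^ 12 * ((n : ℝ) + 1) ^ 6 * B ^ 2 ≤ Y) : 10 ^ 12 * ((n : ℝ) ^ k * b) ≤ Y := by
  have h1 := mul_le_mul (N.npow hk) hb b0 (by have := N.n4; linarith)
  linarith

end Nm

namespace Q1

variable (Q : Q1 σ τ π π' s s' sg R kap Gs ε T T₁ T₂ T₃ T₄ f hN B z)

include Q

theorem nm : Nm n (sg / R) (T₁ (levG n sg R kap Gs (π z))) B
    (hN z + T₁ (levG n sg R kap Gs (π z))) :=
  Nm.mk' Q.n1' Q.c0 Q.c1' Q.B1 Q.bX (by linarith [Q.n0]) (by linarith [Q.n1])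

theorem eF : σ.F (wW π π' sg R kap Gs T f) z = ∑ i, (σ.D i f z +
    T₁ (levG n sg R kap Gs (π z)) * wR n sg R (π z) i) ^ 2 := by
  unfold Sl.F
  rw [Fl_G Q.p Q.m Q.hn Q.h0 Q.h1 Q.R0 Q.hz]
  refine Finset.sum_congr rfl fun i _ => ?_
  rw [Q.ex z (mem_univ z) i, Q.hD i]
  ring

theorem fi2 : ∑ i, σ.D i f z ^ 2 ≤ n * B ^ 2 := by
  calc ∑ i, σ.D i f z ^ 2 ≤ ∑ _i : Fin n, B ^ 2 := Finset.sum_le_sum fun i _ => by
        have h := Q.bf.d1 i
        rw [one_mul] at h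
        exact sq_le_sq' (abs_le.1 h).1 (abs_le.1 h).2
    _ = n * B ^ 2 := by simp

/-- `|D W|²`. -/
theorem hF : 9 / 10 * (hN z + T₁ (levG n sg R kap Gs (π z))) ^ 2 ≤
    σ.F (wW π π' sg R kap Gs T f) z := by
  rw [Q.eF]
  have N := Q.nm
  have fi := Q.fi2
  have hq := Q.q1
  set X := T₁ (levG n sg R kap Gs (π z))
  have h1 : ∑ i, (49 / 50 * X ^ 2 * wR n sg R (π z) i ^ 2 - 49 * σ.D i f z ^ 2) ≤
      ∑ i, (σ.D i f z + X * wR n sg R (π z) i) ^ 2 := by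
    refine Finset.sum_le_sum fun i _ => ?_
    nlinarith [sq_nonneg (50 * σ.D i f z + X * wR n sg R (π z) i)]
  rw [Finset.sum_sub_distrib, ← Finset.mul_sum, ← Finset.mul_sum] at h1
  have e : ∑ i, wR n sg R (π z) i ^ 2 = HY.sq (wR n sg R (π z)) := rfl
  rw [e] at h1
  set q := HY.sq (wR n sg R (π z))
  have X0 := N.X0
  have h2 : X ^ 2 ≤ X ^ 2 * q := by nlinarith [sq_nonneg X]
  have h3 : (10 : ℝ) ^ 12 * ((n : ℝ) ^ 1 * B ^ 2) ≤ X :=
    N.key (by norm_num) (sq_nonneg B) le_rfl N.b0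
  have h4 : 1 ≤ B ^ 2 := one_le_pow₀ N.B1
  have h5 : (1 : ℝ) ≤ (n : ℝ) ^ 1 * B ^ 2 := by
    have := N.n1
    nlinarith
  have h6 : X ≤ X ^ 2 := by nlinarith
  have h7 : (hN z + X) ^ 2 ≤ (1001 / 1000 * X) ^ 2 :=
    pow_le_pow_left₀ (by linarith [Q.n0]) N.m2 2
  rw [pow_one] at h3
  nlinarith

theorem smW : Sm univ (wW π π' sg R kap Gs T f) := (Q.sff.add Q.sp).add Q.sr

/-- `Γ(lam, W)`. -/
theorem hGm : -(1 / 200 * (sg / R) * (n * B ^ 2 + σ.F (wW π π' sg R kap Gs T f) z)) ≤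
    σ.Γ (wl π sg R kap Gs T₁ hN) (wW π π' sg R kap Gs T f) z := by
  have hz := mem_univ z
  have sT1 : Sm univ fun z => T₁ (levG n sg R kap Gs (π z)) := Q.c₁.s0
  have eD : ∀ i, σ.D i (wl π sg R kap Gs T₁ hN) z = 1 / 100 * (sg / R) * (σ.D i hN z +
      T₂ (levG n sg R kap Gs (π z)) * wR n sg R (π z) i) := by
    intro i
    have e1 : σ.D i (wl π sg R kap Gs T₁ hN) z = 1 / 100 * (sg / R) *
        σ.D i (fun z => hN z + T₁ (levG n sg R kap Gs (π z))) z :=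
      D_cmul σ isOpen_univ (1 / 100 * (sg / R)) (Q.sN.contDiffOn.add sT1) i hz
    rw [e1, D_add σ isOpen_univ Q.sN.contDiffOn sT1 i hz, Ch.D_comp isOpen_univ Q.c₁ i hz,
      Fl_D Q.p Q.m Q.hn Q.h0 Q.h1 Q.R0 Q.hz]
  rw [Fl_G Q.p Q.m Q.hn Q.h0 Q.h1 Q.R0 Q.hz]
  have eW : ∀ i, σ.D i (wW π π' sg R kap Gs T f) z = σ.D i f z +
      T₁ (levG n sg R kap Gs (π z)) * wR n sg R (π z) i := fun i => by
    rw [Q.ex z hz i, Q.hD i]
  have eF := Q.eF
  simp only [eD, eW]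
  rw [eF]
  have N := Q.nm
  have hq := Q.q1
  have t2 := Q.t2
  set X := T₁ (levG n sg R kap Gs (π z))
  set t := T₂ (levG n sg R kap Gs (π z))
  set c := sg / R
  have c0 := N.c0
  have key : ∀ i, -(1 / 200 * c * (B ^ 2 + (σ.D i f z + X * wR n sg R (π z) i) ^ 2)) +
      1 / 100 * c * t * (X * wR n sg R (π z) i ^ 2 - B / 2 * (wR n sg R (π z) i ^ 2 + 1)) ≤
      1 / 100 * c * (σ.D i hN z + t * wR n sg R (π z) i) *
        (σ.D i f z + X * wR n sg R (π z) i) := by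
    intro i
    have hh := Q.n2 i
    have hf := Q.bf.d1 i
    rw [one_mul] at hf
    set h := σ.D i hN z
    set G := σ.D i f z + X * wR n sg R (π z) i with hG
    set w := wR n sg R (π z) i
    set g := σ.D i f z
    have a1 : -(1 / 2 * (B ^ 2 + G ^ 2)) ≤ h * G := by
      have h1 : h ^ 2 ≤ B ^ 2 := sq_le_sq' (abs_le.1 hh).1 (abs_le.1 hh).2
      nlinarith [sq_nonneg (h + G)]
    have a2 : X * w ^ 2 - B / 2 * (w ^ 2 + 1) ≤ w * G := by
      have h1 : -(|w| * B) ≤ w * g := by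
        have h2 := neg_abs_le (w * g)
        rw [abs_mul] at h2
        have h3 := mul_le_mul_of_nonneg_left hf (abs_nonneg w)
        linarith
      have h4 : |w| ≤ (w ^ 2 + 1) / 2 := by
        have := sq_nonneg (|w| - 1)
        rw [sub_sq, sq_abs] at this
        linarith
      have h5 : |w| * B ≤ (w ^ 2 + 1) / 2 * B :=
        mul_le_mul_of_nonneg_right h4 (by linarith [N.B1])
      rw [hG]
      nlinarith
    have k1 := mul_le_mul_of_nonneg_left a1 (by positivity : 0 ≤ 1 / 100 * c)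
    have k2 := mul_le_mul_of_nonneg_left a2 (by positivity : 0 ≤ 1 / 100 * c * t)
    linarith
  refine le_trans ?_ (Finset.sum_le_sum fun i _ => key i)
  rw [Finset.sum_add_distrib, Finset.sum_neg_distrib, ← Finset.mul_sum, ← Finset.mul_sum,
    Finset.sum_add_distrib, Finset.sum_sub_distrib, ← Finset.mul_sum, ← Finset.mul_sum,
    Finset.sum_add_distrib]
  have e : ∑ i, wR n sg R (π z) i ^ 2 = HY.sq (wR n sg R (π z)) := rfl
  rw [e]
  simp only [Finset.sum_const, Finset.card_univ, Fintype.card_fin, nsmul_eq_mul, mul_one]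
  set q := HY.sq (wR n sg R (π z))
  have h3 : (10 : ℝ) ^ 12 * ((n : ℝ) ^ 1 * B) ≤ X :=
    N.key (by norm_num) (by linarith [N.B1]) N.B2 N.b0
  rw [pow_one] at h3
  have n1 := N.n1
  have B1 := N.B1
  have h4 : 0 ≤ X * q - B / 2 * (q + n) := by
    have h5 : B / 2 * q ≤ X / 4 * q := by
      refine mul_le_mul_of_nonneg_right ?_ (by linarith)
      nlinarith
    have h6 : B / 2 * n ≤ X / 4 := by nlinarith
    have h7 : X ≤ X * q := by nlinarith [N.X0]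
    nlinarith
  have h5 : 0 ≤ 1 / 100 * c * t * (X * q - B / 2 * (q + n)) := by positivity
  linarith

theorem ssz (A : Fin n → ℝ) : ss σ A z = ∑ i, A i ^ 2 :=
  Fl_ss Q.p Q.m Q.hn Q.h0 Q.h1 Q.R0 Q.hz A

/-- (h) -/
theorem ch (A : Fin n → ℝ) : wl π sg R kap Gs T₁ hN z * ss σ A z ≤
    HH σ (wW π π' sg R kap Gs T f) z A := by
  rw [Q.eHH, Q.hHH]
  have h1 := HH_le_flat Q.p Q.m Q.hn Q.h0 Q.h1 Q.R0 Q.hz (f := f) (b := B) (fun i j => by
    have := Q.bf.d2 i j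
    rwa [one_mul] at this) A
  have h2 := (abs_le.1 h1).1
  have e := Q.ssz A
  have N := Q.nm
  have t2 := Q.t2
  have g2 := sq_nonneg (H168.INF.gA σ (fun z => levG n sg R kap Gs (π z)) z A)
  have e1 : wl π sg R kap Gs T₁ hN z = 1 / 100 * (sg / R) *
    (hN z + T₁ (levG n sg R kap Gs (π z))) := rfl
  rw [e1, e]
  set a := ∑ i, A i ^ 2
  have a0 : 0 ≤ a := Finset.sum_nonneg fun i _ => sq_nonneg _
  have m2 := N.m2
  set X := T₁ (levG n sg R kap Gs (π z))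
  set c := sg / R
  set mm := hN z + X
  have c0 := N.c0
  have k1 : (10 : ℝ) ^ 12 * ((n : ℝ) ^ 1 * B) ≤ c * X :=
    N.key (by norm_num) (by linarith [N.B1]) N.B2 N.b1
  rw [pow_one] at k1
  have k2 : c * mm ≤ c * (1001 / 1000 * X) := mul_le_mul_of_nonneg_left m2 c0.le
  have k3 : 1 / 100 * c * mm ≤ X * c - B * n := by nlinarith [N.X0]
  have k4 := mul_le_mul_of_nonneg_right k3 a0
  have k5 := mul_nonneg t2 g2
  linarith

/-- (o) -/
theorem co : 2 * |σ.Λ (σ.Λ (wW π π' sg R kap Gs T f)) z| ≤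
    1 / 10 ^ 6 * ((sg / R) * (hN z + T₁ (levG n sg R kap Gs (π z)))) ^ 2 := by
  rw [L_of_D isOpen_univ (fun z hz i => D_congr σ isOpen_univ Q.eL i hz) (mem_univ z)]
  have h1 := Q.hLL
  have N := Q.nm
  set X := T₁ (levG n sg R kap Gs (π z))
  set c := sg / R
  set mm := hN z + X
  have n1 := N.n1
  have B1 := N.B1
  have k1 : (10 : ℝ) ^ 12 * ((n : ℝ) ^ 2 * B ^ 2) ≤ c ^ 2 * X :=
    N.key (by norm_num) (sq_nonneg B) le_rfl N.b2
  have b2 : 1 ≤ B ^ 2 := one_le_pow₀ B1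
  have n2 : 1 ≤ (n : ℝ) ^ 2 := one_le_pow₀ n1
  have BB := N.B2
  have k0 : (1 : ℝ) ≤ n ^ 2 * B ^ 2 := by nlinarith
  have k2 : (10 : ℝ) ^ 12 ≤ X := by
    have := N.key (k := 0) (b := 1) (by norm_num) (by norm_num) b2 N.b0
    rw [pow_zero, mul_one, mul_one] at this
    exact this
  have k3 : X ≤ mm ^ 2 := by
    have h1 := N.m1
    have : mm ≤ mm ^ 2 := by nlinarith
    linarith
  have k4 : c ^ 2 * X ≤ c ^ 2 * mm ^ 2 := mul_le_mul_of_nonneg_left k3 (sq_nonneg c)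
  have k5 : B + 10 * (n : ℝ) ^ 2 ≤ 11 * (n ^ 2 * B ^ 2) := by nlinarith
  rw [mul_pow]
  linarith

/-- (w) -/
theorem cw : wl π sg R kap Gs T₁ hN z * σ.F (wW π π' sg R kap Gs T f) z / 4 +
    wl π sg R kap Gs T₁ hN z ^ 2 / 4 +
    wl π sg R kap Gs T₁ hN z * σ.F (wW π π' sg R kap Gs T f) z / 8 ≤
    wl π sg R kap Gs T₁ hN z * σ.F (wW π π' sg R kap Gs T f) z / 2 +
      2 / 3 * (wl π sg R kap Gs T₁ hN z * σ.Λ (wW π π' sg R kap Gs T f) z +
        σ.Γ (wl π sg R kap Gs T₁ hN) (wW π π' sg R kap Gs T f) z) -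
      3 * (1 / 10 ^ 6 * ((sg / R) * (hN z + T₁ (levG n sg R kap Gs (π z)))) ^ 2) := by
  have hF := Q.hF
  have hG := Q.hGm
  have e1 : wl π sg R kap Gs T₁ hN z = 1 / 100 * (sg / R) *
    (hN z + T₁ (levG n sg R kap Gs (π z))) := rfl
  rw [Q.eL z (mem_univ z), Q.hL]
  have hl := Q.bf.L1
  rw [one_mul] at hl
  have hl' := (abs_le.1 hl).1
  have hq := Q.q1
  have t2 := Q.t2
  have N := Q.nm
  rw [e1]
  set F := σ.F (wW π π' sg R kap Gs T f) z
  set Ga := σ.Γ (wl π sg R kap Gs T₁ hN) (wW π π' sg R kap Gs T f) z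
  set X := T₁ (levG n sg R kap Gs (π z))
  set t := T₂ (levG n sg R kap Gs (π z))
  set q := HY.sq (wR n sg R (π z))
  set c := sg / R
  set mm := hN z + X
  set l := σ.Λ f z
  have n1 := N.n1
  have B1 := N.B1
  have c0 := N.c0
  have c1 := N.c1
  have X0 := N.X0
  have m1 := N.m1
  have b2 : 1 ≤ B ^ 2 := one_le_pow₀ B1
  have BB := N.B2
  have k1 : (10 : ℝ) ^ 12 * ((n : ℝ) ^ 1 * B ^ 2) ≤ X :=
    N.key (by norm_num) (sq_nonneg B) le_rfl N.b0
  have k2 : (10 : ℝ) ^ 12 ≤ X := by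
    have := N.key (k := 0) (b := 1) (by norm_num) (by norm_num) b2 N.b0
    rw [pow_zero, mul_one, mul_one] at this
    exact this
  have k3 : (10 : ℝ) ^ 12 * B ≤ X := by
    have := N.key (k := 0) (b := B) (by norm_num) (by linarith) BB N.b0
    rw [pow_zero, one_mul] at this
    exact this
  rw [pow_one] at k1
  have tq : 0 ≤ t * q := mul_nonneg t2 (by linarith)
  have Xn : 0 ≤ X * (n * c) := by positivity
  have La : -B ≤ l + (X * (n * c) + t * q) := by linarith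
  have m0 : 0 < mm := by linarith
  have La2 : -(1 / 100 * c * mm * B) ≤ 1 / 100 * c * mm * (l + (X * (n * c) + t * q)) := by
    have := mul_le_mul_of_nonneg_left La (by positivity : 0 ≤ 1 / 100 * c * mm)
    linarith
  -- in units of `c`
  have F0 : 0 ≤ F := le_trans (by positivity) hF
  have u1 : n * B ^ 2 ≤ mm := by linarith
  have u2 : mm ≤ F := by nlinarith
  have u3 : (10 : ℝ) ^ 12 * F ≤ mm * F := mul_le_mul_of_nonneg_right (by linarith) F0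
  have u4 : mm * (9 / 10 * mm ^ 2) ≤ mm * F := mul_le_mul_of_nonneg_left hF m0.le
  have u5 : (10 : ℝ) ^ 12 * mm ^ 2 ≤ mm * mm ^ 2 :=
    mul_le_mul_of_nonneg_right (by linarith) (sq_nonneg _)
  have u6 : mm * B ≤ mm ^ 2 := by nlinarith
  have main : 1 / 300 * (n * B ^ 2 + F) + 2 / 3 * (1 / 100 * (mm * B)) +
      (3 / 10 ^ 6 + 1 / 40000) * mm ^ 2 ≤ 1 / 800 * (mm * F) := by nlinarith
  have main2 := mul_le_mul_of_nonneg_left main c0.le
  have v1 : c ^ 2 * mm ^ 2 ≤ c * mm ^ 2 := mul_le_mul_of_nonneg_right (by nlinarith) (sq_nonneg _)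
  have e2 : (c * mm) ^ 2 = c ^ 2 * mm ^ 2 := by ring
  have e3 : (1 / 100 * c * mm) ^ 2 = 1 / 10000 * (c ^ 2 * mm ^ 2) := by ring
  rw [e2, e3]
  linarith

omit Q in
theorem v_sq (v : Fin n → ℝ) (hv : ∀ i, |v i| ≤ 1) : ∑ i, v i ^ 2 ≤ n := by
  calc ∑ i, v i ^ 2 ≤ ∑ _i : Fin n, (1 : ℝ) := Finset.sum_le_sum fun i _ => by
        have h := hv i
        have := sq_le_sq' (abs_le.1 h).1 (abs_le.1 h).2
        rwa [one_pow] at this
    _ = n := by simp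

theorem gV (v : Fin n → ℝ) (hv : ∀ i, |v i| ≤ 1) :
    H168.INF.gA σ (fun z => levG n sg R kap Gs (π z)) z v ^ 2 ≤
      HY.sq (wR n sg R (π z)) * n := by
  have g1 : H168.INF.gA σ (fun z => levG n sg R kap Gs (π z)) z v =
      ∑ i, wR n sg R (π z) i * v i := by
    unfold H168.INF.gA
    simp only [Fl_sz Q.p Q.m Q.hn Q.h0 Q.h1 Q.R0 Q.hz, Fl_D Q.p Q.m Q.hn Q.h0 Q.h1 Q.R0 Q.hz]
    refine Finset.sum_congr rfl fun i _ => ?_
    rw [Finset.sum_eq_single i]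
    · simp
    · intro j _ hj
      simp [Matrix.one_apply_ne' hj]
    · simp
  rw [g1]
  have h1 := Finset.sum_mul_sq_le_sq_mul_sq Finset.univ (fun i => wR n sg R (π z) i) v
  have e : ∑ i, wR n sg R (π z) i ^ 2 = HY.sq (wR n sg R (π z)) := rfl
  rw [e] at h1
  exact h1.trans (mul_le_mul_of_nonneg_left (v_sq v hv) (by linarith [Q.q1]))

/-- The Hessian form of the weight on a bounded vector. -/
theorem hV (v : Fin n → ℝ) (hv : ∀ i, |v i| ≤ 1) : |HH σ (wW π π' sg R kap Gs T f) z v| ≤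
    B * (n * n) + (T₁ (levG n sg R kap Gs (π z)) * (sg / R * n) + n) := by
  have hH := HH_le_flat Q.p Q.m Q.hn Q.h0 Q.h1 Q.R0 Q.hz (f := f) (b := B) (fun i j => by
    have := Q.bf.d2 i j
    rwa [one_mul] at this) v
  have v2 := v_sq v hv
  have v0 : 0 ≤ ∑ i, v i ^ 2 := Finset.sum_nonneg fun i _ => sq_nonneg _
  have g2 := Q.gV v hv
  rw [Q.eHH, Q.hHH, Q.ssz]
  have N := Q.nm
  have t2 := Q.t2
  have tq := Q.tq2
  set S := H168.INF.gA σ (fun z => levG n sg R kap Gs (π z)) z v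
  set X := T₁ (levG n sg R kap Gs (π z))
  set t := T₂ (levG n sg R kap Gs (π z))
  set q := HY.sq (wR n sg R (π z))
  set c := sg / R
  set a := ∑ i, v i ^ 2
  have n1 := N.n1
  have B1 := N.B1
  have c0 := N.c0
  have X0 := N.X0
  have a1 := abs_add_le (HH σ f z v) (X * (c * a) + t * S ^ 2)
  have a2 : |HH σ f z v| ≤ B * (n * n) := by
    refine hH.trans (mul_le_mul_of_nonneg_left ?_ (by linarith))
    exact mul_le_mul_of_nonneg_left v2 (by linarith)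
  have a3 : 0 ≤ X * (c * a) + t * S ^ 2 := by positivity
  rw [abs_of_nonneg a3] at a1
  have a4 : X * (c * a) ≤ X * (c * n) :=
    mul_le_mul_of_nonneg_left (mul_le_mul_of_nonneg_left v2 c0.le) X0.le
  have a5 : t * S ^ 2 ≤ n := by
    have b1 := mul_le_mul_of_nonneg_left g2 t2
    have b2 := mul_le_mul_of_nonneg_right tq (by linarith : (0 : ℝ) ≤ (n : ℝ))
    have e : t * (q * n) = t * q * n := by ring
    linarith
  linarith

theorem w1 (i : Fin n) : |wR n sg R (π z) i| ≤ HY.sq (wR n sg R (π z)) := by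
  have e : ∑ i, wR n sg R (π z) i ^ 2 = HY.sq (wR n sg R (π z)) := rfl
  have h4 : wR n sg R (π z) i ^ 2 ≤ HY.sq (wR n sg R (π z)) := by
    rw [← e]
    exact Finset.single_le_sum (f := fun i => wR n sg R (π z) i ^ 2)
      (fun i _ => sq_nonneg _) (Finset.mem_univ i)
  have h5 := sq_nonneg (|wR n sg R (π z) i| - 1)
  rw [sub_sq, sq_abs] at h5
  linarith [Q.q1]

theorem dLW (i : Fin n) : |σ.D i (σ.Λ (wV π sg R kap Gs T f)) z| ≤ B + n + 3 := by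
  rw [Q.hDL]
  have hl := Q.bf.l1 i
  rw [one_mul] at hl
  refine (abs_add_le _ _).trans ?_
  have w1 := Q.w1 i
  have N := Q.nm
  have hq := Q.q1
  have t2 := Q.t2
  have tq := Q.tq2
  have q3 := Q.q3
  have nc := Q.nc
  rw [abs_mul]
  set q := HY.sq (wR n sg R (π z))
  set t := T₂ (levG n sg R kap Gs (π z))
  set t3 := T₃ (levG n sg R kap Gs (π z))
  set c := sg / R
  have c0 := N.c0
  have c1 := N.c1
  have n1 := N.n1
  have h6 : |t * (n * c) + t3 * q + t * (2 * c)| ≤ t * n + |t3| * q + 2 * t := by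
    have a1 := abs_add_le (t * (n * c) + t3 * q) (t * (2 * c))
    have a2 := abs_add_le (t * (n * c)) (t3 * q)
    rw [abs_mul t3, abs_of_nonneg (by linarith : 0 ≤ q)] at a2
    rw [abs_of_nonneg (by positivity : 0 ≤ t * (n * c))] at a2
    rw [abs_of_nonneg (by positivity : 0 ≤ t * (2 * c))] at a1
    have a3 := mul_le_mul_of_nonneg_left nc t2
    have a4 := mul_le_mul_of_nonneg_left c1 t2
    linarith
  have h7 := mul_le_mul w1 h6 (abs_nonneg _) (by linarith : (0 : ℝ) ≤ q)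
  have h8 : q * (t * n + |t3| * q + 2 * t) ≤ n + 3 := by
    have := mul_le_mul_of_nonneg_right tq (by linarith : (0 : ℝ) ≤ (n : ℝ) + 2)
    have e : q * (t * n + |t3| * q + 2 * t) = t * q * (n + 2) + |t3| * q ^ 2 := by ring
    rw [e]
    linarith
  linarith

theorem gLW (v : Fin n → ℝ) (hv : ∀ i, |v i| ≤ 1) :
    |H168.INF.gA σ (σ.Λ (wW π π' sg R kap Gs T f)) z v| ≤ n * (B + n + 3) := by
  have e2 : H168.INF.gA σ (σ.Λ (wW π π' sg R kap Gs T f)) z v =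
      ∑ i, σ.D i (σ.Λ (wV π sg R kap Gs T f)) z * v i := by
    unfold H168.INF.gA
    simp only [Fl_sz Q.p Q.m Q.hn Q.h0 Q.h1 Q.R0 Q.hz]
    refine Finset.sum_congr rfl fun i _ => ?_
    rw [Finset.sum_eq_single i]
    · rw [D_congr σ isOpen_univ Q.eL i (mem_univ z)]
      simp
    · intro j _ hj
      simp [Matrix.one_apply_ne' hj]
    · simp
  rw [e2]
  have N := Q.nm
  have h2 : ∀ i, |σ.D i (σ.Λ (wV π sg R kap Gs T f)) z * v i| ≤ B + n + 3 := by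
    intro i
    rw [abs_mul]
    have h9 := mul_le_mul (Q.dLW i) (hv i) (abs_nonneg _)
      (by linarith [N.n1, N.B1] : 0 ≤ B + n + 3)
    linarith
  calc |∑ i, σ.D i (σ.Λ (wV π sg R kap Gs T f)) z * v i| ≤ ∑ _i : Fin n, (B + n + 3) :=
        (Finset.abs_sum_le_sum_abs _ _).trans (Finset.sum_le_sum fun i _ => h2 i)
    _ = n * (B + n + 3) := by
      rw [Finset.sum_const, Finset.card_univ, Fintype.card_fin, nsmul_eq_mul]

omit Q in
theorem cp_num {c X m F h g a : ℝ} (N : Nm n c X B m) (hF : 9 / 10 * m ^ 2 ≤ F)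
    (ha : a ≤ n) (h1 : h ≤ B * (n * n) + (X * (c * n) + n)) (h2 : g ≤ n * (B + n + 3)) :
    4 * (1 / 100 * c * m) * a + 64 * h + 8 * g ≤ 1 / 100 * c * m * F / 8 := by
  have n1 := N.n1
  have B1 := N.B1
  have c0 := N.c0
  have c1 := N.c1
  have X0 := N.X0
  have m1 := N.m1
  have b2 : 1 ≤ B ^ 2 := one_le_pow₀ B1
  have BB := N.B2
  have k1 : (10 : ℝ) ^ 12 * ((n : ℝ) ^ 2 * B ^ 2) ≤ c * X :=
    N.key (by norm_num) (sq_nonneg B) le_rfl N.b1
  have k2 : (10 : ℝ) ^ 12 ≤ X := by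
    have := N.key (k := 0) (b := 1) (by norm_num) (by norm_num) b2 N.b0
    rw [pow_zero, mul_one, mul_one] at this
    exact this
  have k3 : (10 : ℝ) ^ 12 * (n : ℝ) ≤ X := by
    have := N.key (k := 1) (b := 1) (by norm_num) (by norm_num) b2 N.b0
    rw [pow_one, mul_one] at this
    exact this
  have n2 : (n : ℝ) ≤ (n : ℝ) ^ 2 := by nlinarith
  have n3 : (1 : ℝ) ≤ (n : ℝ) ^ 2 := by linarith
  have m0 : 0 < m := by linarith
  have z1 : 4 * (1 / 100 * c * m) * a ≤ 1 / 25 * (c * m * n) := by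
    have := mul_le_mul_of_nonneg_left ha (by positivity : 0 ≤ 4 * (1 / 100 * c * m))
    linarith
  have y1 : (n : ℝ) * B ≤ (n : ℝ) ^ 2 * B ^ 2 := mul_le_mul n2 BB (by linarith) (by positivity)
  have y2 : (n : ℝ) ^ 2 * 1 ≤ (n : ℝ) ^ 2 * B ^ 2 :=
    mul_le_mul_of_nonneg_left b2 (by positivity)
  have y3 : (n : ℝ) ^ 2 * B ≤ (n : ℝ) ^ 2 * B ^ 2 :=
    mul_le_mul_of_nonneg_left BB (by positivity)
  have z2 : n * (B + n + 3) ≤ 5 * ((n : ℝ) ^ 2 * B ^ 2) := by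
    have e : (n : ℝ) * (B + n + 3) = n * B + n ^ 2 + 3 * n := by ring
    linarith
  have z3 : B * (n * n) + n ≤ 2 * ((n : ℝ) ^ 2 * B ^ 2) := by
    have e : B * ((n : ℝ) * n) = n ^ 2 * B := by ring
    linarith
  have y4 : X * (c * n) ≤ c * m * n := by
    have := mul_le_mul_of_nonneg_right m1 (by positivity : 0 ≤ c * n)
    linarith
  have y5 : c * X ≤ c * m * n := by
    have h2 : c * X ≤ c * m := mul_le_mul_of_nonneg_left m1 c0.le
    have h3 : c * m * 1 ≤ c * m * n := mul_le_mul_of_nonneg_left n1 (by positivity)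
    linarith
  have z4 : 4 * (1 / 100 * c * m) * a + 64 * h + 8 * g ≤ 100 * (c * m * n) := by
    linarith
  refine z4.trans ?_
  have z5 : 100 * (m * n) ≤ 1 / 100 * m * F / 8 := by
    have y1 : (10 : ℝ) ^ 12 * n * m ≤ m * m := mul_le_mul_of_nonneg_right (by linarith) m0.le
    have y2 : m * (9 / 10 * m ^ 2) ≤ m * F := mul_le_mul_of_nonneg_left hF m0.le
    have y3 : (1 : ℝ) * m ^ 2 ≤ m * m ^ 2 :=
      mul_le_mul_of_nonneg_right (by linarith) (sq_nonneg _)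
    have e : m * (9 / 10 * m ^ 2) = 9 / 10 * (m * m ^ 2) := by ring
    have e' : m * m = m ^ 2 := by ring
    have e2 : (10 : ℝ) ^ 12 * n * m = 10 ^ 12 * (m * n) := by ring
    have e3 : 0 ≤ m * (n : ℝ) := by positivity
    linarith
  have z6 := mul_le_mul_of_nonneg_left z5 c0.le
  linarith

/-- (pen) -/
theorem cp (v : Fin n → ℝ) (hv : ∀ i, |v i| ≤ 1) : 4 * wl π sg R kap Gs T₁ hN z * ss σ v z +
    64 * |HH σ (wW π π' sg R kap Gs T f) z v| +
    8 * |H168.INF.gA σ (σ.Λ (wW π π' sg R kap Gs T f)) z v| ≤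
    wl π sg R kap Gs T₁ hN z * σ.F (wW π π' sg R kap Gs T f) z / 8 := by
  have h1 := Q.hV v hv
  have h2 := Q.gLW v hv
  have h3 : ss σ v z ≤ n := by
    rw [Q.ssz]
    exact v_sq v hv
  exact cp_num Q.nm Q.hF h3 h1 h2

/-- (mm) -/
theorem cmm' (A B' : Fin n → ℝ) : 16 * |MM σ τ (wW π π' sg R kap Gs T f) z A B'| ≤
    1 / 2 * (wl π sg R kap Gs T₁ hN z * ss σ A z + 1 / 100 * (sg / R) * ss τ B' z) := by
  rw [Q.eMM]
  have hs : ∀ i j, |σ.s i j z| ≤ 2 := fun i j => by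
    rw [Fl_sz Q.p Q.m Q.hn Q.h0 Q.h1 Q.R0 Q.hz, Matrix.one_apply]
    split_ifs <;> simp
  have hs' : ∀ i j, |τ.s i j z| ≤ 2 := by
    intro i j
    rw [Q.p'.s]
    have h1 := Q.m'.c0 i j (π' z)
    have h2 : |(1 : Matrix (Fin n) (Fin n) ℝ) i j| ≤ 1 := by
      rw [Matrix.one_apply]; split_ifs <;> simp
    have h3 : |s' (π' z) i j| ≤ |s' (π' z) i j - (1 : Matrix (Fin n) (Fin n) ℝ) i j| +
        |(1 : Matrix (Fin n) (Fin n) ℝ) i j| := by
      refine le_trans (le_of_eq ?_) (abs_add_le _ _)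
      congr 1
      ring
    have h4 : ε ≤ 1 := by
      have := Q.ε1
      have := Q.n1'
      have := Q.ε0
      nlinarith
    linarith
  have h1 := MM_bd (f := f) (b := B) hs hs' (fun i k => by
    have := Q.bf.dm i k
    rwa [one_mul] at this) A B'
  have N := Q.nm
  have a1 := a1_sq A
  have a2 := a1_sq B'
  have a3 := Q.m'.lo Q.p' Q.ε0 Q.ε1 z B'
  rw [Q.ssz]
  have e1 : wl π sg R kap Gs T₁ hN z = 1 / 100 * (sg / R) *
    (hN z + T₁ (levG n sg R kap Gs (π z))) := rfl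
  rw [e1]
  set X := T₁ (levG n sg R kap Gs (π z))
  set c := sg / R
  set mm := hN z + X
  set x := ∑ i, |A i|
  set y := ∑ i, |B' i|
  set a := ∑ i, A i ^ 2
  set b := ∑ i, B' i ^ 2
  have n1 := N.n1
  have c0 := N.c0
  have m0 : 0 < mm := by linarith [N.X0, N.m1]
  have n0 : (0 : ℝ) < n := by linarith
  have k1 : (10 : ℝ) ^ 12 * ((n : ℝ) ^ 6 * B ^ 2) ≤ c ^ 2 * X :=
    N.key (by norm_num) (sq_nonneg B) le_rfl N.b2
  have k2 : c ^ 2 * X ≤ c ^ 2 * mm := mul_le_mul_of_nonneg_left N.m1 (sq_nonneg c)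
  set u := 1 / 100 * c * mm / (2 * n) with hu
  set v := 1 / 100 * c / (4 * n) with hv
  have u0 : 0 ≤ u := by positivity
  have v0 : 0 ≤ v := by positivity
  have h2 : (64 * (n : ℝ) ^ 2 * B) ^ 2 ≤ 4 * (u * v) := by
    have e : 4 * (u * v) = 1 / 20000 * (c ^ 2 * mm) / n ^ 2 := by
      rw [hu, hv]
      field_simp
      norm_num
    rw [e, le_div_iff₀ (by positivity)]
    have e2 : (64 * (n : ℝ) ^ 2 * B) ^ 2 * n ^ 2 = 4096 * (n ^ 6 * B ^ 2) := by ring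
    rw [e2]
    have : 0 ≤ (n : ℝ) ^ 6 * B ^ 2 := by positivity
    linarith
  have h3 := amgm u0 v0 h2 x y
  have h4 : u * x ^ 2 ≤ 1 / 2 * (1 / 100 * c * mm * a) := by
    have := mul_le_mul_of_nonneg_left a1 u0
    have e : u * (n * a) = 1 / 2 * (1 / 100 * c * mm * a) := by
      rw [hu]
      field_simp
    linarith
  have h5 : v * y ^ 2 ≤ 1 / 2 * (1 / 100 * c * ss τ B' z) := by
    have h6 := mul_le_mul_of_nonneg_left a2 v0
    have h7 := mul_le_mul_of_nonneg_left a3 (by positivity : 0 ≤ v * n)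
    have e : v * n * (2 * ss τ B' z) = 1 / 2 * (1 / 100 * c * ss τ B' z) := by
      rw [hv]
      field_simp
      norm_num
    linarith
  linarith

/-- (g1) -/
theorem cg1 (A : Fin n → ℝ) (y : ℝ) :
    8 * |y * H168.INF.gA σ (τ.Λ (wW π π' sg R kap Gs T f)) z A| ≤
      1 / 2 * (wl π sg R kap Gs T₁ hN z * ss σ A z) + 1 / 10 ^ 6 * ((sg / R) * 1) ^ 2 / 2 * y ^ 2 := by
  have hs : ∀ i j, |σ.s i j z| ≤ 2 := fun i j => by
    rw [Fl_sz Q.p Q.m Q.hn Q.h0 Q.h1 Q.R0 Q.hz, Matrix.one_apply]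
    split_ifs <;> simp
  have h1 : |H168.INF.gA σ (τ.Λ (wW π π' sg R kap Gs T f)) z A| ≤ 2 * n * B * ∑ i, |A i| := by
    refine gA_bd hs (fun i => ?_) A
    rw [Q.x2 z (mem_univ z) i]
    have := Q.bf.l2 i
    rwa [one_mul] at this
  have N := Q.nm
  have a1 := a1_sq A
  rw [Q.ssz, abs_mul]
  have e1 : wl π sg R kap Gs T₁ hN z = 1 / 100 * (sg / R) *
    (hN z + T₁ (levG n sg R kap Gs (π z))) := rfl
  rw [e1]
  set X := T₁ (levG n sg R kap Gs (π z))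
  set c := sg / R
  set mm := hN z + X
  set x := ∑ i, |A i|
  set a := ∑ i, A i ^ 2
  have n1 := N.n1
  have c0 := N.c0
  have m0 : 0 < mm := by linarith [N.X0, N.m1]
  have n0 : (0 : ℝ) < n := by linarith
  have k1 : (10 : ℝ) ^ 12 * ((n : ℝ) ^ 3 * B ^ 2) ≤ c ^ 3 * X :=
    N.key (by norm_num) (sq_nonneg B) le_rfl N.b3
  have k2 : c ^ 3 * X ≤ c ^ 3 * mm := mul_le_mul_of_nonneg_left N.m1 (by positivity)
  set u := 1 / 100 * c * mm / (2 * n) with hu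
  set v := 1 / 10 ^ 6 * (c * 1) ^ 2 / 2 with hv
  have u0 : 0 ≤ u := by positivity
  have v0 : 0 ≤ v := by positivity
  have h2 : (16 * (n : ℝ) * B) ^ 2 ≤ 4 * (u * v) := by
    have e : 4 * (u * v) = 1 / 10 ^ 8 * (c ^ 3 * mm) / n := by
      rw [hu, hv]
      field_simp
      norm_num
    rw [e, le_div_iff₀ (by positivity)]
    have e2 : (16 * (n : ℝ) * B) ^ 2 * n = 256 * (n ^ 3 * B ^ 2) := by ring
    rw [e2]
    have : 0 ≤ (n : ℝ) ^ 3 * B ^ 2 := by positivity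
    linarith
  have h3 := amgm u0 v0 h2 x |y|
  rw [sq_abs] at h3
  have h4 : u * x ^ 2 ≤ 1 / 2 * (1 / 100 * c * mm * a) := by
    have := mul_le_mul_of_nonneg_left a1 u0
    have e : u * (n * a) = 1 / 2 * (1 / 100 * c * mm * a) := by
      rw [hu]
      field_simp
    linarith
  have h5 := mul_le_mul_of_nonneg_left h1 (abs_nonneg y)
  linarith

/-- (g2) -/
theorem cg2 (B' : Fin n → ℝ) (x : ℝ) :
    8 * |x * H168.INF.gA τ (σ.Λ (wW π π' sg R kap Gs T f)) z B'| ≤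
      1 / 2 * (1 / 100 * (sg / R) * ss τ B' z) +
        1 / 10 ^ 6 * ((sg / R) * (hN z + T₁ (levG n sg R kap Gs (π z)))) ^ 2 / 2 * x ^ 2 := by
  have hs' : ∀ i j, |τ.s i j z| ≤ 2 := by
    intro i j
    rw [Q.p'.s]
    have h1 := Q.m'.c0 i j (π' z)
    have h2 : |(1 : Matrix (Fin n) (Fin n) ℝ) i j| ≤ 1 := by
      rw [Matrix.one_apply]; split_ifs <;> simp
    have h3 : |s' (π' z) i j| ≤ |s' (π' z) i j - (1 : Matrix (Fin n) (Fin n) ℝ) i j| +
        |(1 : Matrix (Fin n) (Fin n) ℝ) i j| := by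
      refine le_trans (le_of_eq ?_) (abs_add_le _ _)
      congr 1
      ring
    have h4 : ε ≤ 1 := by
      have := Q.ε1
      have := Q.n1'
      have := Q.ε0
      nlinarith
    linarith
  have h1 : |H168.INF.gA τ (σ.Λ (wW π π' sg R kap Gs T f)) z B'| ≤
      2 * n * B * ∑ i, |B' i| := by
    refine gA_bd hs' (fun i => ?_) B'
    rw [Q.x1 z (mem_univ z) i]
    have := Q.bf.l3 i
    rwa [one_mul] at this
  have N := Q.nm
  have a1 := a1_sq B'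
  have a3 := Q.m'.lo Q.p' Q.ε0 Q.ε1 z B'
  rw [abs_mul]
  set X := T₁ (levG n sg R kap Gs (π z))
  set c := sg / R
  set mm := hN z + X
  set y := ∑ i, |B' i|
  set b := ∑ i, B' i ^ 2
  have n1 := N.n1
  have c0 := N.c0
  have m0 : 0 < mm := by linarith [N.X0, N.m1]
  have n0 : (0 : ℝ) < n := by linarith
  have b2 : 1 ≤ B ^ 2 := one_le_pow₀ N.B1
  have k0 : (10 : ℝ) ^ 12 ≤ X := by
    have := N.key (k := 0) (b := 1) (by norm_num) (by norm_num) b2 N.b0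
    rw [pow_zero, mul_one, mul_one] at this
    exact this
  have k1 : (10 : ℝ) ^ 12 * ((n : ℝ) ^ 3 * B ^ 2) ≤ c ^ 3 * X :=
    N.key (by norm_num) (sq_nonneg B) le_rfl N.b3
  have k2 : c ^ 3 * X ≤ c ^ 3 * mm ^ 2 := by
    refine mul_le_mul_of_nonneg_left ?_ (by positivity)
    have := N.m1
    nlinarith
  set v := 1 / 100 * c / (4 * n) with hv
  set u := 1 / 10 ^ 6 * (c * mm) ^ 2 / 2 with hu
  have u0 : 0 ≤ u := by positivity
  have v0 : 0 ≤ v := by positivity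
  have h2 : (16 * (n : ℝ) * B) ^ 2 ≤ 4 * (u * v) := by
    have e : 4 * (u * v) = 1 / (2 * 10 ^ 8) * (c ^ 3 * mm ^ 2) / n := by
      rw [hu, hv]
      field_simp
      norm_num
    rw [e, le_div_iff₀ (by positivity)]
    have e2 : (16 * (n : ℝ) * B) ^ 2 * n = 256 * (n ^ 3 * B ^ 2) := by ring
    rw [e2]
    have : 0 ≤ (n : ℝ) ^ 3 * B ^ 2 := by positivity
    linarith
  have h3 := amgm u0 v0 h2 |x| y
  rw [sq_abs] at h3
  have h4 : v * y ^ 2 ≤ 1 / 2 * (1 / 100 * c * ss τ B' z) := by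
    have h6 := mul_le_mul_of_nonneg_left a1 v0
    have h7 := mul_le_mul_of_nonneg_left a3 (by positivity : 0 ≤ v * n)
    have e : v * n * (2 * ss τ B' z) = 1 / 2 * (1 / 100 * c * ss τ B' z) := by
      rw [hv]
      field_simp
      norm_num
    linarith
  have h5 := mul_le_mul_of_nonneg_left h1 (abs_nonneg x)
  linarith

/-- (m2) -/
theorem cm2 : (16 * |M2 σ τ (wW π π' sg R kap Gs T f) (wW π π' sg R kap Gs T f) z| +
    4 * |σ.Λ (τ.Λ (wW π π' sg R kap Gs T f)) z|) ^ 2 ≤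
    1 / 10 ^ 6 * ((sg / R) * (hN z + T₁ (levG n sg R kap Gs (π z)))) ^ 2 *
      (1 / 10 ^ 6 * ((sg / R) * 1) ^ 2) := by
  rw [Q.eM2, Q.eLL]
  have h1 := Q.bf.gm
  have h2 := Q.bf.m2
  rw [one_mul] at h1 h2
  have N := Q.nm
  set X := T₁ (levG n sg R kap Gs (π z))
  set c := sg / R
  set mm := hN z + X
  have c0 := N.c0
  have B1 := N.B1
  have BB := N.B2
  have b2 : 1 ≤ B ^ 2 := one_le_pow₀ B1
  have k1 : (10 : ℝ) ^ 12 * B ^ 2 ≤ c ^ 2 * mm := by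
    have := N.key (k := 0) (b := B ^ 2) (by norm_num) (sq_nonneg B) le_rfl N.b2
    rw [pow_zero, one_mul] at this
    have h3 : c ^ 2 * X ≤ c ^ 2 * mm := mul_le_mul_of_nonneg_left N.m1 (sq_nonneg c)
    linarith
  have h3 : 16 * |M2 σ τ f f z| + 4 * |σ.Λ (τ.Λ f) z| ≤ 20 * B ^ 2 := by linarith
  have h4 := pow_le_pow_left₀ (by positivity) h3 2
  have h5 := pow_le_pow_left₀ (by positivity) k1 2
  have e : 1 / 10 ^ 6 * (c * mm) ^ 2 * (1 / 10 ^ 6 * (c * 1) ^ 2) =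
      1 / 10 ^ 12 * (c ^ 2 * mm) ^ 2 := by ring
  rw [e]
  refine h4.trans ?_
  have h6 : (20 * B ^ 2) ^ 2 = 400 / 10 ^ 24 * (10 ^ 12 * B ^ 2) ^ 2 := by ring
  rw [h6]
  have h7 : (0 : ℝ) ≤ (c ^ 2 * mm) ^ 2 := sq_nonneg _
  linarith

/-- **The facts of a very stiff slot.** -/
theorem stf : Stf σ τ (wW π π' sg R kap Gs T f) (wl π sg R kap Gs T₁ hN)
    (1 / 10 ^ 6 * ((sg / R) * (hN z + T₁ (levG n sg R kap Gs (π z)))) ^ 2)
    (1 / 100 * (sg / R)) (1 / 10 ^ 6 * ((sg / R) * 1) ^ 2) z where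
  h := Q.ch
  o := Q.co
  w := Q.cw
  pen := Q.cp
  mm := Q.cmm'
  g1 := Q.cg1
  g2 := Q.cg2
  m2 := Q.cm2

end Q1

end pt

end Vale.Agent.P088.R2.H406.INF
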